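import Vale.Agent.P109.Prog

/-!
P109, chart side: Taylor's formula with remainder along a segment, and its form in coordinates.
-/

open Set Finset

namespace Vale.Agent.P109

variable {E : Type} [NormedAddCommGroup E] [NormedSpace ℝ E]

/-- The Taylor polynomial along `h`. -/
noncomputable def taylorSum (g : E → E) (D : Set E) (k : ℕ) (v h : E) : E :=
  ∑ i ∈ range (k + 1),
    ((Nat.factorial i : ℝ))⁻¹ • iteratedFDerivWithin ℝ i g D v (fun _ => h)

theorem hasDerivWithinAt_iteratedFDerivWithin_line {g : E → E} {D : Set E}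
    (hD : UniqueDiffOn ℝ D) (hg : ContDiffOn ℝ (⊤ : ℕ∞) g D) {v h : E}
    (hseg : ∀ t ∈ Icc (0 : ℝ) 1, v + t • h ∈ D) (i : ℕ) {t : ℝ} (ht : t ∈ Icc (0 : ℝ) 1) :
    HasDerivWithinAt (fun s => iteratedFDerivWithin ℝ i g D (v + s • h) (fun _ => h))
      (iteratedFDerivWithin ℝ (i + 1) g D (v + t • h) (fun _ => h)) (Icc 0 1) t := by
  have hlt : ((i : ℕ∞) : WithTop ℕ∞) < ((⊤ : ℕ∞) : WithTop ℕ∞) :=
    WithTop.coe_lt_coe.2 (ENat.natCast_lt_top i)
  have h1 := (hg.differentiableOn_iteratedFDerivWithin hlt hD _ (hseg t ht)).hasFDerivWithinAt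
  have hline : HasDerivWithinAt (fun s : ℝ => v + s • h) h (Icc 0 1) t := by
    simpa using ((hasDerivWithinAt_id t (Icc (0 : ℝ) 1)).smul_const h).const_add v
  have h2 := h1.comp_hasDerivWithinAt t hline hseg
  have h3 := (ContinuousMultilinearMap.apply ℝ (fun _ : Fin i => E) E (fun _ => h)).hasFDerivAt
    |>.comp_hasDerivWithinAt t h2
  rw [iteratedFDerivWithin_succ_apply_left]
  exact h3

theorem taylor_segment {g : E → E} {D : Set E} (hD : UniqueDiffOn ℝ D)
    (hg : ContDiffOn ℝ (⊤ : ℕ∞) g D) {v h : E} (hseg : ∀ t ∈ Icc (0 : ℝ) 1, v + t • h ∈ D)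
    (k : ℕ) {C : ℝ}
    (hC : ∀ t ∈ Icc (0 : ℝ) 1, ‖iteratedFDerivWithin ℝ (k + 1) g D (v + t • h)‖ ≤ C) :
    ‖g (v + h) - taylorSum g D k v h‖ ≤ C * ‖h‖ ^ (k + 1) := by
  set F : ℝ → E := fun t => ∑ i ∈ range (k + 1),
    (((1 - t) ^ i / (Nat.factorial i : ℝ))) • iteratedFDerivWithin ℝ i g D (v + t • h) (fun _ => h)
    with hF
  have hFd : ∀ t ∈ Icc (0 : ℝ) 1, HasDerivWithinAt F
      (((1 - t) ^ k / (Nat.factorial k : ℝ)) •
        iteratedFDerivWithin ℝ (k + 1) g D (v + t • h) (fun _ => h)) (Icc 0 1) t := by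
    intro t ht
    set G : ℕ → E := fun i => iteratedFDerivWithin ℝ i g D (v + t • h) (fun _ => h) with hG
    set T : ℕ → E := fun i => if i = 0 then 0
      else ((1 - t) ^ (i - 1) / (Nat.factorial (i - 1) : ℝ)) • G i with hT
    have hi : ∀ i ∈ range (k + 1), HasDerivWithinAt
        (fun s => ((1 - s) ^ i / (Nat.factorial i : ℝ)) •
          iteratedFDerivWithin ℝ i g D (v + s • h) (fun _ => h)) (T (i + 1) - T i) (Icc 0 1) t := by
      intro i _
      have hc : HasDerivWithinAt (fun s : ℝ => (1 - s) ^ i / (Nat.factorial i : ℝ))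
          (((i : ℝ) * (1 - t) ^ (i - 1) * (-1)) / (Nat.factorial i : ℝ)) (Icc 0 1) t :=
        (((hasDerivWithinAt_id t _).const_sub 1).pow i).div_const _
      have h2 := hc.smul (hasDerivWithinAt_iteratedFDerivWithin_line hD hg hseg i ht)
      refine h2.congr_deriv ?_
      cases i with
      | zero => simp [hT, hG]
      | succ j =>
        simp only [hT, hG, Nat.succ_ne_zero, if_false, Nat.add_sub_cancel]
        have e : ((j + 1 : ℕ) : ℝ) * (1 - t) ^ j * -1 / ((j + 1).factorial : ℝ) =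
            -((1 - t) ^ j / (j.factorial : ℝ)) := by
          rw [Nat.factorial_succ]
          push_cast
          field_simp
        rw [e, neg_smul, ← sub_eq_add_neg]
    have hs := HasDerivWithinAt.fun_sum hi
    refine hs.congr_deriv ?_
    rw [Finset.sum_range_sub]
    simp [hT, hG]
  have hbound : ∀ t ∈ Ico (0 : ℝ) 1, ‖((1 - t) ^ k / (Nat.factorial k : ℝ)) •
      iteratedFDerivWithin ℝ (k + 1) g D (v + t • h) (fun _ => h)‖ ≤ C * ‖h‖ ^ (k + 1) := by
    intro t ht
    have h0 : 0 ≤ 1 - t := by linarith [ht.2]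
    have hf : (1 : ℝ) ≤ (Nat.factorial k : ℝ) := by exact_mod_cast Nat.factorial_pos k
    have h1 : (1 - t) ^ k / (Nat.factorial k : ℝ) ≤ 1 := by
      rw [div_le_one (by linarith)]
      exact (pow_le_one₀ h0 (by linarith [ht.1])).trans hf
    rw [norm_smul, Real.norm_eq_abs, abs_of_nonneg (by positivity)]
    calc _ ≤ 1 * (C * ‖h‖ ^ (k + 1)) := by
          refine mul_le_mul h1 ?_ (norm_nonneg _) zero_le_one
          refine (ContinuousMultilinearMap.le_opNorm _ _).trans ?_
          simp only [Finset.prod_const, Finset.card_univ, Fintype.card_fin]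
          exact mul_le_mul_of_nonneg_right (hC t (Ico_subset_Icc_self ht)) (by positivity)
      _ = _ := one_mul _
  have := norm_image_sub_le_of_norm_deriv_le_segment_01' hFd hbound
  refine le_trans (le_of_eq ?_) this
  congr 1
  have e1 : F 1 = g (v + h) := by
    simp only [hF]
    rw [Finset.sum_eq_single 0]
    · simp
    · intro b _ hb; simp [hb]
    · simp
  have e0 : F 0 = taylorSum g D k v h := by simp [hF, taylorSum, one_div]
  rw [e1, e0]

/-- The coordinate form of a Taylor polynomial. -/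
noncomputable def taylorCoef {d : ℕ} (L : E ≃L[ℝ] Vec d) (g : E → E) (D : Set E) (k : ℕ) (v : E) :
    Coef d k := fun i w =>
  ((Nat.factorial i : ℝ))⁻¹ •
    L (iteratedFDerivWithin ℝ i g D v fun q => L.symm (Pi.single (w q) 1))

theorem peval_taylorCoef {d : ℕ} (L : E ≃L[ℝ] Vec d) (g : E → E) (D : Set E) (k : ℕ) (v : E)
    (x : Vec d) :
    peval (taylorCoef L g D k v) x = L (taylorSum g D k v (L.symm x)) := by
  have hx : L.symm x = ∑ l, x l • L.symm (Pi.single l 1) := by
    conv_lhs => rw [pi_eq_sum_univ' x]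
    rw [map_sum]
    exact Finset.sum_congr rfl fun l _ => map_smul _ _ _
  rw [taylorSum, map_sum, Finset.sum_range, peval]
  refine Finset.sum_congr rfl fun i _ => ?_
  rw [map_smul, hx, ContinuousMultilinearMap.map_sum, map_sum, Finset.smul_sum]
  refine Finset.sum_congr rfl fun w _ => ?_
  rw [ContinuousMultilinearMap.map_smul_univ, map_smul, taylorCoef, smul_comm]

theorem norm_taylorCoef_le {d : ℕ} (L : E ≃L[ℝ] Vec d) (g : E → E) (D : Set E) (k : ℕ) (v : E)
    (i : Fin (k + 1)) (w : Fin i → Fin d) :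
    ‖taylorCoef L g D k v i w‖ ≤ ‖(L : E →L[ℝ] Vec d)‖ *
      (‖iteratedFDerivWithin ℝ i g D v‖ * ‖(L.symm : Vec d →L[ℝ] E)‖ ^ (i : ℕ)) := by
  have hf : (1 : ℝ) ≤ (Nat.factorial i : ℝ) := by exact_mod_cast Nat.factorial_pos i
  rw [taylorCoef, norm_smul, Real.norm_eq_abs, abs_of_nonneg (by positivity)]
  refine (mul_le_of_le_one_left (norm_nonneg _) (inv_le_one_of_one_le₀ hf)).trans ?_
  refine ((L : E →L[ℝ] Vec d).le_opNorm _).trans (mul_le_mul_of_nonneg_left ?_ (norm_nonneg _))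
  refine (ContinuousMultilinearMap.le_opNorm _ _).trans
    (mul_le_mul_of_nonneg_left ?_ (norm_nonneg _))
  calc ∏ q, ‖L.symm (Pi.single (w q) (1 : ℝ))‖
      ≤ ∏ _q : Fin i, ‖(L.symm : Vec d →L[ℝ] E)‖ := by
        refine Finset.prod_le_prod (fun q _ => norm_nonneg _) fun q _ => ?_
        refine ((L.symm : Vec d →L[ℝ] E).le_opNorm _).trans ?_
        rw [Pi.norm_single, norm_one, mul_one]
    _ = _ := by simp

end Vale.Agent.P109
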