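import Vale.Agent.P109.Orbit
import Vale.Agent.P109.Taylor

/-!
P109, chart side: a compact manifold model whose map has derivatives of bounded growth in finitely
many charts gives `Pieces` for some scale free data `τ`.
-/

open MeasureTheory Set Filter Topology
open scoped Manifold

namespace Vale.Agent.P109

variable {E : Type} [NormedAddCommGroup E] [NormedSpace ℝ E]
  {H : Type} [TopologicalSpace H] (I : ModelWithCorners ℝ E H)
  {M : Type} [TopologicalSpace M]

/-- Where the expression of `S` from the chart `e` to the chart `e'` is defined. -/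
def chartDomain (e e' : OpenPartialHomeomorph M H) (S : M → M) : Set E :=
  (e.extend I).target ∩ (e.extend I).symm ⁻¹' (S ⁻¹' e'.source)

/-- The expression of `S` from the chart `e` to the chart `e'`. -/
noncomputable def chartMap (e e' : OpenPartialHomeomorph M H) (S : M → M) : E → E :=
  e'.extend I ∘ S ∘ (e.extend I).symm

theorem exists_open_extend_preimage (e : OpenPartialHomeomorph M H) {O : Set M} (hO : IsOpen O) :
    ∃ U : Set E, IsOpen U ∧
      (e.extend I).target ∩ (e.extend I).symm ⁻¹' O = range I ∩ U := by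
  refine ⟨I.symm ⁻¹' (e.target ∩ e.symm ⁻¹' O),
    (e.isOpen_inter_preimage_symm hO).preimage I.continuous_symm, ?_⟩
  rw [e.extend_target, e.extend_coe_symm]
  ext x
  simp only [mem_inter_iff, mem_preimage, Function.comp]
  tauto

theorem uniqueDiffOn_chartDomain {S : M → M} (hS : Continuous S)
    (e e' : OpenPartialHomeomorph M H) : UniqueDiffOn ℝ (chartDomain I e e' S) := by
  obtain ⟨U, hU, h⟩ := exists_open_extend_preimage I e (e'.open_source.preimage hS)
  rw [chartDomain, h]
  exact I.uniqueDiffOn.inter hU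

theorem contDiffOn_chartMap [ChartedSpace H M] [IsManifold I (⊤ : ℕ∞) M] {S : M → M}
    (hS : ContMDiff I I (⊤ : ℕ∞) S) {e e' : OpenPartialHomeomorph M H}
    (he : e ∈ IsManifold.maximalAtlas I (⊤ : ℕ∞) M)
    (he' : e' ∈ IsManifold.maximalAtlas I (⊤ : ℕ∞) M) :
    ContDiffOn ℝ (⊤ : ℕ∞) (chartMap I e e' S) (chartDomain I e e' S) := by
  refine ((contMDiffOn_iff_of_mem_maximalAtlas' (f := S) (s := e.source ∩ S ⁻¹' e'.source) he he'
    inter_subset_left fun x hx => hx.2).1 (hS.contMDiffOn (s := e.source ∩ S ⁻¹' e'.source))).mono ?_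
  rintro x ⟨hx, hx'⟩
  refine ⟨(e.extend I).symm x, ⟨?_, hx'⟩, (e.extend I).right_inv hx⟩
  rw [← e.extend_source (I := I)]
  exact (e.extend I).map_target hx

section Main

variable [FiniteDimensional ℝ E] [MeasurableSpace E] [BorelSpace E]
  [CompactSpace M] [T2Space M] [MeasurableSpace M] [BorelSpace M]

omit [MeasurableSpace E] [BorelSpace E] [T2Space M] [MeasurableSpace M] [BorelSpace M] in
theorem exists_zone {m : ℕ} (ec : Fin m → OpenPartialHomeomorph M H) {S : M → M}
    (hS : Continuous S) (W : Fin m → Set M) (hWo : ∀ i, IsOpen (W i))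
    (hWc : ∀ x, ∃ i, x ∈ W i) (hWs : ∀ i, closure (W i) ⊆ (ec i).source) :
    ∃ (Z : Fin m → Fin m → Set E) (δ : ℝ), 0 < δ ∧ (∀ i j, IsCompact (Z i j)) ∧
      (∀ i j, Z i j ⊆ chartDomain I (ec i) (ec j) S) ∧
      (∀ i j, ∀ x ∈ Z i j, S (((ec i).extend I).symm x) ∈ closure (W j)) ∧
      ∀ i, ∀ v ∈ (ec i).extend I '' closure (W i), ∃ j,
        Metric.closedBall v δ ∩ range I ⊆ Z i j := by
  classical
  have key : ∀ i, ∀ v ∈ (ec i).extend I '' closure (W i), ∃ j, ∃ r : ℝ, 0 < r ∧
      Metric.closedBall v r ∩ range I ⊆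
        ((ec i).extend I).target ∩ ((ec i).extend I).symm ⁻¹' (S ⁻¹' W j) := by
    rintro i v ⟨x, hx, rfl⟩
    obtain ⟨j, hj⟩ := hWc (S x)
    obtain ⟨U, hU, hUe⟩ := exists_open_extend_preimage I (ec i) ((hWo j).preimage hS)
    have hs : x ∈ ((ec i).extend I).source := by
      rw [(ec i).extend_source]; exact hWs i hx
    have hv : (ec i).extend I x ∈ U := by
      have h : (ec i).extend I x ∈
          ((ec i).extend I).target ∩ ((ec i).extend I).symm ⁻¹' (S ⁻¹' W j) := by
        refine ⟨((ec i).extend I).map_source hs, ?_⟩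
        rw [mem_preimage, ((ec i).extend I).left_inv hs]
        exact hj
      rw [hUe] at h
      exact h.2
    obtain ⟨r, hr, hball⟩ := Metric.nhds_basis_closedBall.mem_iff.1 (hU.mem_nhds hv)
    refine ⟨j, r, hr, ?_⟩
    rw [hUe]
    exact fun y hy => ⟨hy.2, hball hy.1⟩
  choose! jf rf hr hsub using key
  have hK : ∀ i, IsCompact ((ec i).extend I '' closure (W i)) := fun i =>
    isClosed_closure.isCompact.image_of_continuousOn
      ((ec i).continuousOn_extend.mono (by rw [(ec i).extend_source]; exact hWs i))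
  have cover : ∀ i, ∃ t : Finset E, (∀ v ∈ t, v ∈ (ec i).extend I '' closure (W i)) ∧
      (ec i).extend I '' closure (W i) ⊆ ⋃ v ∈ t, Metric.ball v (rf i v / 2) := by
    intro i
    obtain ⟨t, h1, h2⟩ := (hK i).elim_nhds_subcover (fun v => Metric.ball v (rf i v / 2))
      fun v hv => Metric.ball_mem_nhds _ (half_pos (hr i v hv))
    exact ⟨t, h1, h2⟩
  choose t ht htc using cover
  obtain ⟨δ, hδ, hδle⟩ : ∃ δ : ℝ, 0 < δ ∧ ∀ i, ∀ v ∈ t i, δ ≤ rf i v / 2 := by
    by_cases hne : (Finset.univ.sigma t).Nonempty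
    · refine ⟨(Finset.univ.sigma t).inf' hne fun p => rf p.1 p.2 / 2, ?_, fun i v hv => ?_⟩
      · rw [Finset.lt_inf'_iff]
        intro p hp
        exact half_pos (hr _ _ (ht _ _ (Finset.mem_sigma.1 hp).2))
      · exact Finset.inf'_le (f := fun p : Sigma fun _ : Fin m => E => rf p.1 p.2 / 2)
          (b := ⟨i, v⟩) (Finset.mem_sigma.2 ⟨Finset.mem_univ i, hv⟩)
    · refine ⟨1, one_pos, fun i v hv => absurd ?_ hne⟩
      exact ⟨⟨i, v⟩, Finset.mem_sigma.2 ⟨Finset.mem_univ i, hv⟩⟩
  refine ⟨fun i j => ⋃ v ∈ (t i).filter (fun v => jf i v = j),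
    Metric.closedBall v (rf i v) ∩ range I, δ, hδ, fun i j => ?_, fun i j => ?_, fun i j => ?_,
    fun i v hv => ?_⟩
  · exact Finset.isCompact_biUnion _ fun v _ =>
      (isCompact_closedBall v _).inter_right I.isClosed_range
  · refine iUnion₂_subset fun v hv => ?_
    rw [Finset.mem_filter] at hv
    obtain ⟨hv, rfl⟩ := hv
    refine (hsub i v (ht i v hv)).trans (inter_subset_inter_right _ ?_)
    exact preimage_mono (preimage_mono (subset_closure.trans (hWs _)))
  · intro x hx
    simp only [mem_iUnion₂, Finset.mem_filter] at hx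
    obtain ⟨v, ⟨hv, rfl⟩, hxv⟩ := hx
    exact subset_closure ((hsub i v (ht i v hv)) hxv).2
  · obtain ⟨v₀, hv₀, hvv⟩ := mem_iUnion₂.1 (htc i hv)
    refine ⟨jf i v₀, fun y hy => mem_iUnion₂.2 ⟨v₀, Finset.mem_filter.2 ⟨hv₀, rfl⟩, ?_, hy.2⟩⟩
    rw [Metric.mem_closedBall]
    have h1 := Metric.mem_closedBall.1 hy.1
    have h2 := Metric.mem_ball.1 hvv
    linarith [dist_triangle y v v₀, hδle i v₀ hv₀]

/-- The absolute continuity of a chart image in coordinates. -/
theorem map_coord_absolutelyContinuous {d : ℕ} (L : E ≃L[ℝ] Vec d) {μ : Measure E}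
    (h : μ ≪ Measure.addHaar) : μ.map L ≪ (volume : Measure (Vec d)) := by
  have : ((Measure.addHaar : Measure E).map L).IsAddHaarMeasure := L.isAddHaarMeasure_map _
  exact (h.map L.continuous.measurable).trans
    (Measure.absolutelyContinuous_isAddHaarMeasure _ _)

/-- Exact form of the growth hypothesis. -/
def BoundedGrowth (B : ℕ → ℝ) {m : ℕ} (ec : Fin m → OpenPartialHomeomorph M H) (S : M → M) :
    Prop :=
  ∀ i j, ∀ K, K ⊆ chartDomain I (ec i) (ec j) S → IsCompact K → ∃ C : ℝ, ∀ k : ℕ, ∀ u ∈ K,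
    ‖iteratedFDerivWithin ℝ k (chartMap I (ec i) (ec j) S) (chartDomain I (ec i) (ec j) S) u‖
      ≤ C ^ (k + 1) * B k

/-- Natural number majorant of a bound sequence. -/
noncomputable def natBound (B : ℕ → ℝ) (k : ℕ) : ℕ := ⌈|B k|⌉₊

theorem exists_pieces [ChartedSpace H M] [IsManifold I (⊤ : ℕ∞) M] (B : ℕ → ℝ) {m : ℕ}
    (ec : Fin m → OpenPartialHomeomorph M H)
    (hmax : ∀ i, ec i ∈ IsManifold.maximalAtlas I (⊤ : ℕ∞) M)
    (hcov : ∀ x, ∃ i, x ∈ (ec i).source)
    {ν : Measure M} [IsProbabilityMeasure ν]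
    (hac : ∀ i, (ν.restrict (ec i).source).map ((ec i).extend I) ≪ Measure.addHaar)
    {S : M → M} (hS : ContMDiff I I (⊤ : ℕ∞) S) (hB : BoundedGrowth I B ec S)
    {Q : M → Fin q₀} (hQ : Measurable Q) :
    ∃ τ : Tau, 0 < τ.m ∧ Nonempty (Pieces (natBound B) τ ν S Q) := by
  classical
  have : SecondCountableTopology H := I.secondCountableTopology
  have : SecondCountableTopology M := ChartedSpace.secondCountable_of_sigmaCompact H M
  have hm : 0 < m := by
    obtain ⟨x⟩ := nonempty_of_isProbabilityMeasure ν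
    obtain ⟨i, _⟩ := hcov x
    exact Fin.pos i
  set d := Module.finrank ℝ E with hd
  set L : E ≃L[ℝ] Vec d := (Module.finBasis ℝ E).equivFunL with hL
  obtain ⟨W, hWu, hWo, hWs⟩ := exists_subset_iUnion_closure_subset (s := (univ : Set M))
    isClosed_univ (fun i => (ec i).open_source) (fun x _ => toFinite _)
    (fun x _ => mem_iUnion.2 (hcov x))
  have hWc : ∀ x, ∃ i, x ∈ W i := fun x => mem_iUnion.1 (hWu (mem_univ x))
  have hSc := hS.continuous
  obtain ⟨Z, δ, hδ, hZc, hZd, hZW, hZ⟩ := exists_zone I ec hSc W hWo hWc hWs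
  choose C hC using fun i j => hB i j (Z i j) (hZd i j) (hZc i j)
  -- coordinates
  set ψ : Fin m → Vec d → M := fun i u => ((ec i).extend I).symm (L.symm u) with hψ
  set φ : Fin m → M → Vec d := fun i x => L ((ec i).extend I x) with hφ
  set K : Fin m → Set (Vec d) := fun i => φ i '' closure (W i) with hK
  have hsrc : ∀ i, closure (W i) ⊆ ((ec i).extend I).source := fun i => by
    rw [(ec i).extend_source]; exact hWs i
  have hψφ : ∀ i, ∀ x ∈ closure (W i), ψ i (φ i x) = x := fun i x hx => by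
    simp only [hψ, hφ, L.symm_apply_apply]
    exact ((ec i).extend I).left_inv (hsrc i hx)
  have hφc : ∀ i, ContinuousOn (φ i) (ec i).source := fun i => by
    have h := (ec i).continuousOn_extend (I := I)
    rw [(ec i).extend_source] at h
    exact L.continuous.comp_continuousOn h
  have hKc : ∀ i, IsCompact (K i) := fun i =>
    isClosed_closure.isCompact.image_of_continuousOn ((hφc i).mono (hWs i))
  have hKt : ∀ i, ∀ u ∈ K i, L.symm u ∈ (ec i).extend I '' closure (W i) := by
    rintro i u ⟨x, hx, rfl⟩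
    exact ⟨x, hx, (L.symm_apply_apply _).symm⟩
  have hKr : ∀ i, ∀ u ∈ K i, L.symm u ∈ range I := by
    intro i u hu
    obtain ⟨x, hx, hxu⟩ := hKt i u hu
    rw [← hxu]
    exact (ec i).extend_target_subset_range (((ec i).extend I).map_source (hsrc i hx))
  -- continuous approximation of the names
  have hQr : Integrable (fun x => ((Q x : ℕ) : ℝ)) ν :=
    Integrable.of_bound ((measurable_of_countable fun q : Fin q₀ => ((q : ℕ) : ℝ)).comp hQ
      |>.aestronglyMeasurable) (q₀ : ℝ) (Eventually.of_forall fun x => by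
        rw [Real.norm_of_nonneg (Nat.cast_nonneg _)]
        exact Nat.cast_le.2 (Q x).2.le)
  obtain ⟨fb, hfb, hfbi⟩ := hQr.exists_boundedContinuous_integral_sub_le
    (ε := 1 / 4096) (by norm_num)
  -- uniform continuity
  have hunif : ∀ i, ∃ e : ℝ, 0 < e ∧ ∀ u ∈ K i, ∀ v ∈ K i, ‖u - v‖ < e →
      |fb (ψ i u) - fb (ψ i v)| < 1 / 4 := by
    intro i
    have hcont : ContinuousOn (fun u => fb (ψ i u)) (K i) := by
      refine fb.continuous.comp_continuousOn ?_
      refine ((ec i).continuousOn_extend_symm (I := I)).comp L.symm.continuous.continuousOn ?_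
      intro u hu
      obtain ⟨x, hx, hxu⟩ := hKt i u hu
      rw [← hxu]
      exact ((ec i).extend I).map_source (hsrc i hx)
    obtain ⟨e, he, h⟩ := Metric.uniformContinuousOn_iff.1
      ((hKc i).uniformContinuousOn_of_continuous hcont) (1 / 4) (by norm_num)
    refine ⟨e, he, fun u hu v hv huv => ?_⟩
    simpa [Real.dist_eq] using h u hu v hv (by rwa [dist_eq_norm])
  choose e he hef using hunif
  -- scales
  have : Nonempty (Fin m) := ⟨⟨0, hm⟩⟩
  set e₀ := Finset.univ.inf' Finset.univ_nonempty e with he₀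
  have he₀pos : 0 < e₀ := by simp [he₀, Finset.lt_inf'_iff, he]
  have he₀le : ∀ i, e₀ ≤ e i := fun i => Finset.inf'_le _ (Finset.mem_univ i)
  set b : ℝ := ‖(L.symm : Vec d →L[ℝ] E)‖ with hb
  set l : ℝ := ‖(L : E →L[ℝ] Vec d)‖ with hl
  obtain ⟨J, hJ1, hJ2⟩ : ∃ J : ℕ, b * (4 / 2 ^ J) ≤ δ ∧ (4 : ℝ) / 2 ^ J < e₀ := by
    have ht : Tendsto (fun J : ℕ => (4 : ℝ) / 2 ^ J) atTop (𝓝 0) :=
      tendsto_const_nhds.div_atTop (tendsto_pow_atTop_atTop_of_one_lt one_lt_two)
    have h1 := (ht.const_mul b).eventually (ge_mem_nhds (by simpa using hδ))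
    have h2 := ht.eventually (gt_mem_nhds he₀pos)
    exact (h1.and h2).exists
  set R : ℝ := 1 + ∑ i, ∑ j, |C i j| with hR
  have hR1 : 1 ≤ R := le_add_of_nonneg_right (Finset.sum_nonneg fun i _ =>
    Finset.sum_nonneg fun j _ => abs_nonneg _)
  have hRC : ∀ i j, |C i j| ≤ R := by
    intro i j
    have h1 : |C i j| ≤ ∑ j', |C i j'| :=
      Finset.single_le_sum (f := fun j' => |C i j'|) (fun _ _ => abs_nonneg _) (Finset.mem_univ j)
    have h2 : ∑ j', |C i j'| ≤ ∑ i', ∑ j', |C i' j'| :=
      Finset.single_le_sum (f := fun i' => ∑ j', |C i' j'|)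
        (fun _ _ => Finset.sum_nonneg fun _ _ => abs_nonneg _) (Finset.mem_univ i)
    rw [hR]; linarith
  have hKb : ∀ i, ∃ c : ℝ, ∀ u ∈ K i, ‖u‖ ≤ c := fun i =>
    ((hKc i).exists_bound_of_continuousOn continuousOn_id)
  choose cK hcK using hKb
  set N : ℝ := R * max 1 b * max 1 l with hN
  obtain ⟨P, hP⟩ : ∃ P : ℕ, max (max N (∑ i, |cK i|))
      (l * (R ^ 2 * natBound B 1 * b)) ≤ P := exists_nat_ge _
  have hPN : N ≤ P := ((le_max_left _ _).trans (le_max_left _ _)).trans hP
  -- densities
  set A : Fin m → Set M := disjointed fun i => closure (W i) with hA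
  have hAm : ∀ i, MeasurableSet (A i) := fun i => disjointedRec
    (fun _ _ h => h.diff isClosed_closure.measurableSet) isClosed_closure.measurableSet
  have hAW : ∀ i, A i ⊆ closure (W i) := fun i => disjointed_subset _ i
  set μc : Fin m → Measure (Vec d) := fun i => (ν.restrict (A i)).map (φ i) with hμc
  have hφm : ∀ i, AEMeasurable (φ i) (ν.restrict (A i)) := fun i =>
    ((hφc i).mono ((hAW i).trans (hWs i))).aemeasurable (hAm i)
  have hμac : ∀ i, μc i ≪ volume := by
    intro i
    have hle : ν.restrict (A i) ≤ ν.restrict (ec i).source :=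
      Measure.restrict_mono ((hAW i).trans (hWs i)) le_rfl
    have hm2 : AEMeasurable ((ec i).extend I) (ν.restrict (ec i).source) := by
      have h := (ec i).continuousOn_extend (I := I)
      rw [(ec i).extend_source] at h
      exact h.aemeasurable (ec i).open_source.measurableSet
    have h1 : (ν.restrict (A i)).map ((ec i).extend I) ≪ Measure.addHaar := by
      refine Measure.AbsolutelyContinuous.trans ?_ (hac i)
      refine Measure.AbsolutelyContinuous.mk fun s hs h0 => ?_
      rw [Measure.map_apply_of_aemeasurable hm2 hs] at h0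
      rw [Measure.map_apply_of_aemeasurable (hm2.mono_measure hle) hs]
      exact le_antisymm ((hle _).trans h0.le) zero_le
    have h2 := map_coord_absolutelyContinuous L h1
    rwa [AEMeasurable.map_map_of_aemeasurable L.continuous.measurable.aemeasurable
      (hm2.mono_measure hle)] at h2
  set ρ : Fin m → Vec d → ℝ := fun i u => ((μc i).rnDeriv volume u).toReal with hρ
  have hρi : ∀ i, Integrable (ρ i) volume := fun i => Measure.integrable_toReal_rnDeriv
  have hρs : ∀ i (s : Set (Vec d)), ∫ u in s, ρ i u = (μc i).real s := fun i s =>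
    Measure.setIntegral_toReal_rnDeriv (hμac i) s
  have hAdis : Pairwise fun i j => Disjoint (A i) (A j) := disjoint_disjointed _
  have hAu : (⋃ i, A i) = univ := by
    rw [hA, iUnion_disjointed]
    exact eq_univ_of_forall fun x => mem_iUnion.2 ((hWc x).imp fun i hi => subset_closure hi)
  have hνsum : ∀ s, MeasurableSet s → ν.real s = ∑ i, ν.real (s ∩ A i) := by
    intro s hs
    conv_lhs => rw [← inter_univ s, ← hAu, inter_iUnion]
    exact measureReal_iUnion_fintype
      (fun i j hij => (hAdis hij).mono inter_subset_right inter_subset_right)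
      fun i => hs.inter (hAm i)
  have hdens : ∀ i, ∃ j : ℕ, ∫ u, |ρ i u - densAt d j u| ≤ 1 / (32 * m) := by
    intro i
    obtain ⟨j, hj⟩ := (Metric.denseRange_iff.1
      (@TopologicalSpace.denseRange_denseSeq (Dens d) _ (separableSpace_dens d) _))
      ((hρi i).toL1 (ρ i)) (1 / (32 * m)) (by positivity)
    refine ⟨j, le_of_le_of_eq ?_ rfl⟩
    rw [dist_eq_norm, L1.norm_eq_integral_norm] at hj
    refine le_trans (le_of_eq (integral_congr_ae ?_)) hj.le
    filter_upwards [Lp.coeFn_sub ((hρi i).toL1 (ρ i))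
      (@TopologicalSpace.denseSeq (Dens d) _ (separableSpace_dens d) _ j),
      Integrable.coeFn_toL1 (hρi i)] with u h1 h2
    rw [h1, Pi.sub_apply, h2, Real.norm_eq_abs]
    rfl
  choose jd hjd using hdens
  -- table
  let tab : Fin m → Cell d P J → Fin q₀ := fun i c =>
    if h : ∃ v ∈ K i, ‖corner c - v‖ ≤ 2 / 2 ^ J then
      if h' : ∃ a : Fin q₀, |fb (ψ i h.choose) - (a : ℕ)| < 1 / 2 then h'.choose else 0
    else 0
  refine ⟨⟨d, m, P, J, tab, jd⟩, hm, ⟨?_⟩⟩
  refine
    { ψ := ψ, K := K, norm_le := ?_, step := ?_, f := fun x => fb x,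
      f_meas := fb.continuous.measurable, f_int := ?_, f_close := ?_, f_unif := ?_, tab_eq := ?_,
      ρ := ρ, ρ_int := hρi, ρ_nonneg := fun i u => ENNReal.toReal_nonneg, ρ_mass := ?_,
      ρ_dom := ?_, dens_close := ?_ }
  · intro i v hv
    refine (hcK i v hv).trans ((le_abs_self _).trans ?_)
    exact ((Finset.single_le_sum (f := fun i => |cK i|) (fun _ _ => abs_nonneg _)
      (Finset.mem_univ i)).trans ((le_max_right _ _).trans (le_max_left _ _))).trans hP
  · intro i v hv
    obtain ⟨j, hj⟩ := hZ i (L.symm v) (hKt i v hv)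
    set g := chartMap I (ec i) (ec j) S with hg
    set D := chartDomain I (ec i) (ec j) S with hD
    refine ⟨j, fun u => L (g (L.symm u)), fun k => ?_⟩
    have hUD := uniqueDiffOn_chartDomain I hSc (ec i) (ec j)
    have hgd := contDiffOn_chartMap I hS (hmax i) (hmax j)
    have hvZ : L.symm v ∈ Z i j := hj ⟨Metric.mem_closedBall_self hδ.le, hKr i v hv⟩
    have hbd : ∀ r, ∀ x ∈ Z i j,
        ‖iteratedFDerivWithin ℝ r g D x‖ ≤ R ^ (r + 1) * natBound B r := by
      intro r x hx
      refine (hC i j r x hx).trans ((le_abs_self _).trans ?_)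
      rw [abs_mul, abs_pow]
      refine mul_le_mul (pow_le_pow_left₀ (abs_nonneg _) (hRC i j) _) (Nat.le_ceil _)
        (abs_nonneg _) (by positivity)
    have hb0 : 0 ≤ b := norm_nonneg _
    have hl0 : 0 ≤ l := norm_nonneg _
    have hb1 : b ≤ max 1 b := le_max_right _ _
    have hN1 : 1 ≤ N := by
      rw [hN]
      exact one_le_mul_of_one_le_of_one_le (one_le_mul_of_one_le_of_one_le hR1 (le_max_left _ _))
        (le_max_left _ _)
    -- the common bound for a coefficient or remainder of order `r`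
    have hcoef : ∀ r, r ≤ k + 1 → l * (R ^ (r + 1) * natBound B r * b ^ r) ≤
        (Tau.coefBound (natBound B) P k : ℝ) := by
      intro r hr
      have h1 : l * (R ^ (r + 1) * natBound B r * b ^ r) ≤ N ^ (r + 1) * natBound B r := by
        have hlN : l * (R ^ (r + 1) * b ^ r) ≤ N ^ (r + 1) := by
          calc l * (R ^ (r + 1) * b ^ r)
              ≤ (max 1 l) ^ (r + 1) * (R ^ (r + 1) * (max 1 b) ^ (r + 1)) := by
                refine mul_le_mul ((le_max_right 1 l).trans (le_self_pow₀ (le_max_left 1 l)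
                  (Nat.succ_ne_zero r))) ?_ (by positivity) (by positivity)
                refine mul_le_mul_of_nonneg_left ?_ (by positivity)
                exact (pow_le_pow_left₀ hb0 hb1 r).trans
                  (pow_le_pow_right₀ (le_max_left _ _) (Nat.le_succ r))
            _ = N ^ (r + 1) := by rw [hN, mul_pow, mul_pow]; ring
        calc _ = l * (R ^ (r + 1) * b ^ r) * natBound B r := by ring
          _ ≤ _ := mul_le_mul_of_nonneg_right hlN (Nat.cast_nonneg _)
      refine h1.trans ?_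
      rw [Tau.coefBound]
      push_cast
      refine mul_le_mul ((pow_le_pow_right₀ hN1 (by omega)).trans
        (pow_le_pow_left₀ (by linarith) hPN _)) ?_ (Nat.cast_nonneg _) (by positivity)
      have : (natBound B r : ℝ) ≤ ∑ x ∈ Finset.range (k + 2), (natBound B x : ℝ) :=
        Finset.single_le_sum (f := fun x => (natBound B x : ℝ))
          (fun _ _ => Nat.cast_nonneg _) (Finset.mem_range.2 (by omega))
      linarith
    refine ⟨taylorCoef L g D k (L.symm v), fun r w => ?_, fun r hr w => ?_, fun u hu huv => ?_⟩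
    · refine (norm_taylorCoef_le L g D k _ r w).trans (le_trans ?_ (hcoef r (by omega)))
      rw [← hl, ← hb]
      gcongr
      exact hbd r _ hvZ
    · refine (norm_taylorCoef_le L g D k _ r w).trans ?_
      rw [← hl, ← hb]
      refine le_trans ?_ ((le_max_right _ _).trans hP)
      have h1 := hbd r _ hvZ
      rw [hr] at h1 ⊢
      rw [pow_one]
      gcongr
    · have hball : ∀ t ∈ Icc (0 : ℝ) 1, L.symm v + t • L.symm (u - v) ∈ Z i j := by
        intro t ht
        refine hj ⟨?_, ?_⟩
        · rw [Metric.mem_closedBall, dist_eq_norm, add_sub_cancel_left, norm_smul,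
            Real.norm_eq_abs, abs_of_nonneg ht.1]
          calc t * ‖L.symm (u - v)‖ ≤ 1 * (b * ‖u - v‖) :=
                mul_le_mul ht.2 ((L.symm : Vec d →L[ℝ] E).le_opNorm _) (norm_nonneg _)
                  zero_le_one
            _ ≤ b * (4 / 2 ^ J) := by rw [one_mul]; exact mul_le_mul_of_nonneg_left huv hb0
            _ ≤ δ := hJ1
        · have := I.convex_range.add_smul_sub_mem (hKr i v hv) (hKr i u hu) ht
          rwa [← map_sub] at this
      have hend : L.symm v + L.symm (u - v) = L.symm u := by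
        rw [← map_add, add_sub_cancel]
      have huZ : L.symm u ∈ Z i j := by
        have := hball 1 (right_mem_Icc.2 zero_le_one)
        rwa [one_smul, hend] at this
      have hsx := hZW i j _ huZ
      refine ⟨⟨_, hsx, rfl⟩, hψφ j _ hsx, ?_⟩
      rw [peval_taylorCoef, ← map_sub]
      refine ((L : E →L[ℝ] Vec d).le_opNorm _).trans ?_
      have ht := taylor_segment hUD hgd (fun t ht => hZd i j (hball t ht)) k
        fun t ht => hbd (k + 1) _ (hball t ht)
      rw [hend] at ht
      calc l * ‖g (L.symm u) - taylorSum g D k (L.symm v) (L.symm (u - v))‖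
          ≤ l * (R ^ (k + 1 + 1) * natBound B (k + 1) * ‖L.symm (u - v)‖ ^ (k + 1)) :=
            mul_le_mul_of_nonneg_left ht hl0
        _ ≤ l * (R ^ (k + 1 + 1) * natBound B (k + 1) * (b * ‖u - v‖) ^ (k + 1)) := by
            gcongr
            exact (L.symm : Vec d →L[ℝ] E).le_opNorm _
        _ = (l * (R ^ (k + 1 + 1) * natBound B (k + 1) * b ^ (k + 1))) * ‖u - v‖ ^ (k + 1) := by
            ring
        _ ≤ _ := mul_le_mul_of_nonneg_right (hcoef (k + 1) le_rfl) (by positivity)
  · exact (hfbi.sub hQr).abs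
  · refine le_trans (le_of_eq (integral_congr_ae (Eventually.of_forall fun x => ?_))) hfb
    simp only [Real.norm_eq_abs]
    exact abs_sub_comm _ _
  · intro i u hu v hv huv
    exact hef i u hu v hv (huv.trans_lt (hJ2.trans_le (he₀le i)))
  · intro i c hc
    obtain ⟨hv, hcv⟩ := hc.choose_spec
    refine ⟨hc.choose, hv, hcv, fun a ha => ?_⟩
    have h' : ∃ a : Fin q₀, |fb (ψ i hc.choose) - (a : ℕ)| < 1 / 2 := ⟨a, ha⟩
    have e : tab i c = h'.choose := (dif_pos hc).trans (dif_pos h')
    change tab i c = a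
    rw [e]
    have h2 := h'.choose_spec
    have h3 : |((h'.choose : ℕ) : ℝ) - (a : ℕ)| < 1 := by
      calc _ ≤ |((h'.choose : ℕ) : ℝ) - fb (ψ i hc.choose)| +
            |fb (ψ i hc.choose) - (a : ℕ)| := abs_sub_le _ _ _
        _ < 1 / 2 + 1 / 2 := add_lt_add (by rwa [abs_sub_comm]) ha
        _ = 1 := by norm_num
    obtain ⟨h4, h5⟩ := abs_lt.1 h3
    apply Fin.ext
    have h6 : (h'.choose : ℕ) < (a : ℕ) + 1 := by
      exact_mod_cast (by linarith : ((h'.choose : ℕ) : ℝ) < ((a : ℕ) : ℝ) + 1)
    have h7 : (a : ℕ) < (h'.choose : ℕ) + 1 := by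
      exact_mod_cast (by linarith : ((a : ℕ) : ℝ) < ((h'.choose : ℕ) : ℝ) + 1)
    omega
  · have h1 : ∀ i, ∫ u, ρ i u = ν.real (A i) := fun i => by
      rw [← setIntegral_univ, hρs, hμc, measureReal_def, measureReal_def,
        Measure.map_apply_of_aemeasurable (hφm i) MeasurableSet.univ, preimage_univ,
        Measure.restrict_apply_univ]
    rw [Finset.sum_congr rfl fun i _ => h1 i]
    refine le_of_eq ?_
    have := hνsum univ MeasurableSet.univ
    simp only [univ_inter, probReal_univ] at this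
    exact this.symm
  · intro s hs
    rw [hνsum s hs]
    refine Finset.sum_le_sum fun i _ => ?_
    rw [hρs, measureReal_def, measureReal_def]
    refine ENNReal.toReal_mono (measure_ne_top _ _) ?_
    refine le_trans ?_ (Measure.le_map_apply (hφm i) _)
    rw [Measure.restrict_apply' (hAm i)]
    refine measure_mono fun x hx => ⟨⟨?_, x, hAW i hx.2, rfl⟩, hx.2⟩
    change ψ i (φ i x) ∈ s
    rw [hψφ i x (hAW i hx.2)]
    exact hx.1
  · calc ∑ i, ∫ u, |ρ i u - densAt d (jd i) u| ≤ ∑ _i : Fin m, (1 : ℝ) / (32 * m) :=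
          Finset.sum_le_sum fun i _ => hjd i
      _ = 1 / 32 := by
          have : (m : ℝ) ≠ 0 := Nat.cast_ne_zero.2 hm.ne'
          simp; field_simp

end Main

end Vale.Agent.P109
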