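import Mathlib

/-!
P109, shared definitions.  The word-process side proves `ProcessStmt`; the model side supplies, for
every model of bounded derivative growth, an index `i` whose candidate families are close to the
name distribution at all large scales.
-/

open MeasureTheory

namespace Vale.Agent.P109

/-- Alphabet size. -/
abbrev q₀ : ℕ := 2 ^ 16

/-- Two-sided sequences over the alphabet. -/
abbrev Seq : Type := ℤ → Fin q₀

/-- Words of length `n`. -/
abbrev Word (n : ℕ) : Type := Fin n → Fin q₀

/-- The shift. -/
def shift (x : Seq) : Seq := fun t => x (t + 1)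

/-- The window `[0, n)`. -/
def window (n : ℕ) (x : Seq) : Word n := fun i => x i

/-- The `θ n` Hamming neighbourhood of a set of words. -/
noncomputable def near {n : ℕ} (θ : ℝ) (A : Finset (Word n)) : Finset (Word n) := by
  classical exact Finset.univ.filter fun z => ∃ w ∈ A, (hammingDist z w : ℝ) ≤ θ * n

/-- `q` is a candidate law close to the law of the window of length `n`. -/
def Close (μ : Measure Seq) {n : ℕ} (q : Word n → ℝ) : Prop :=
  ∀ A : Finset (Word n),
    μ.real (window n ⁻¹' (A : Set (Word n))) ≤ (∑ z ∈ near (1 / 16) A, q z) + 1 / 16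

/-- Candidate laws are nonnegative with total mass at most two. -/
def Subprob {n : ℕ} (q : Word n → ℝ) : Prop := (∀ z, 0 ≤ q z) ∧ ∑ z, q z ≤ 2

/-- A countable system of candidate families, indexed also by a rate `1/(a+1)`, of double
exponential size at most that rate from the threshold `N i a` on, is escaped by one ergodic
shift-invariant nonatomic measure. -/
def ProcessStmt : Prop :=
  ∀ (C : ℕ → ℕ → (n : ℕ) → Finset (Word n → ℝ)) (N : ℕ → ℕ → ℕ),
    (∀ i a n, N i a ≤ n →
      (C i a n).card ≤ 2 ^ 2 ^ (n / (a + 1)) ∧ ∀ q ∈ C i a n, Subprob q) →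
    ∃ μ : Measure Seq, IsProbabilityMeasure μ ∧ Ergodic shift μ ∧ (∀ x, μ {x} = 0) ∧
      ∀ i, ∃ a n, N i a ≤ n ∧ ∀ q ∈ C i a n, ¬ Close μ q

end Vale.Agent.P109
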