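import Vale.Agent.P109.Prog

/-!
P109, model side: the candidate families and their cardinality.
-/

open MeasureTheory Filter

namespace Vale.Agent.P109

/-- Integrable functions on coordinates, up to null sets. -/
abbrev Dens (d : ℕ) : Type := Lp ℝ 1 (volume : Measure (Vec d))

theorem separableSpace_dens (d : ℕ) : TopologicalSpace.SeparableSpace (Dens d) :=
  haveI : Fact ((1 : ENNReal) ≠ ⊤) := ⟨ENNReal.one_ne_top⟩
  inferInstance

/-- A fixed dense sequence of densities. -/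
noncomputable def densAt (d : ℕ) (j : ℕ) : Vec d → ℝ :=
  ⇑(@TopologicalSpace.denseSeq (Dens d) _ (separableSpace_dens d) _ j)

/-- Scale free data of a program: dimension, number of pieces, bound, table resolution, table of
names, indices of the initial densities. -/
structure Tau where
  d : ℕ
  m : ℕ
  P : ℕ
  J : ℕ
  tab : Fin m → Cell d P J → Fin q₀
  dens : Fin m → ℕ

instance : Countable Tau := by
  have h : Function.Injective fun τ : Tau =>
      (⟨(τ.d, τ.m, τ.P, τ.J), (τ.tab, τ.dens)⟩ :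
        Σ x : ℕ × ℕ × ℕ × ℕ,
          (Fin x.2.1 → Cell x.1 x.2.2.1 x.2.2.2 → Fin q₀) × (Fin x.2.1 → ℕ)) := by
    rintro ⟨d, m, P, J, tab, dens⟩ ⟨d', m', P', J', tab', dens'⟩ h
    simp only [Sigma.mk.injEq, Prod.mk.injEq] at h
    obtain ⟨⟨rfl, rfl, rfl, rfl⟩, h⟩ := h
    obtain ⟨rfl, rfl⟩ := Prod.mk.inj (eq_of_heq h)
    rfl
  exact h.countable

namespace Tau

variable (τ : Tau) (a : ℕ)

/-- Logarithmic expansion bound. -/
def lam : ℕ := τ.P * τ.d + τ.P + 3

/-- The grid exponent at word length `n` is `n / div`. -/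
def div : ℕ := (a + 1) * (4 * (τ.d + 1))

/-- Degree. -/
def deg : ℕ := 2 * τ.lam * τ.div a

/-- Grid exponent. -/
def gexp (n : ℕ) : ℕ := n / τ.div a

/-- Number of binary digits. -/
def bits (n : ℕ) : ℕ := 4 * τ.lam * n

/-- Programs at word length `n`. -/
abbrev CodeAt (n : ℕ) : Type :=
  Code τ.d τ.m τ.P (τ.gexp a n) (τ.deg a) (τ.bits n)

/-- The names produced by a program. -/
noncomputable def names {n : ℕ} (p : τ.CodeAt a n) (s : Fin τ.m × Vec τ.d) : Word n :=
  fun t => τ.tab ((progStep p)^[t] s).1 (cellOf τ.P τ.J ((progStep p)^[t] s).2)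

/-- The name law of a program. -/
noncomputable def law {n : ℕ} (p : τ.CodeAt a n) (z : Word n) : ℝ :=
  ∑ i, ∫ u in {u | τ.names a p (i, u) = z}, max (densAt τ.d (τ.dens i) u) 0

/-- The candidate family. -/
noncomputable def cands (n : ℕ) : Finset (Word n → ℝ) := by
  classical exact (Finset.univ.image fun p : τ.CodeAt a n => τ.law a p).filter Subprob

theorem mem_cands {n : ℕ} {q : Word n → ℝ} :
    q ∈ τ.cands a n ↔ (∃ p : τ.CodeAt a n, τ.law a p = q) ∧ Subprob q := by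
  classical
  simp [cands]

theorem card_cands_le (n : ℕ) : (τ.cands a n).card ≤ Fintype.card (τ.CodeAt a n) := by
  classical
  unfold cands
  exact (Finset.card_filter_le _ _).trans (Finset.card_image_le.trans_eq Finset.card_univ)

/-- The bound on the coefficients, from the growth sequence. -/
def coefBound (B : ℕ → ℕ) (P k : ℕ) : ℕ := P ^ (k + 2) * (∑ i ∈ Finset.range (k + 2), B i + 1)

/-- The one-step error at word length `n`. -/
noncomputable def eta (B : ℕ → ℕ) (n : ℕ) : ℝ :=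
  ((nTerms τ.d (τ.deg a) : ℝ) + τ.P * τ.d + 1) / 2 ^ τ.bits n +
    coefBound B τ.P (τ.deg a) * (8 / 2 ^ τ.gexp a n) ^ (τ.deg a + 1)

/-- The conditions a word length must satisfy. -/
structure Fit (B : ℕ → ℕ) (n : ℕ) : Prop where
  coef_le : (coefBound B τ.P (τ.deg a) : ℝ) ≤ 2 ^ τ.bits n
  P_le : (τ.P : ℝ) ≤ 2 ^ τ.bits n
  small : (nTerms τ.d (τ.deg a) : ℝ) *
    (coefBound B τ.P (τ.deg a) * τ.deg a * (8 / 2 ^ τ.gexp a n)) ≤ 1
  grid : τ.J ≤ τ.gexp a n
  eight : 3 ≤ τ.gexp a n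
  err : τ.eta a B n * 2 ^ (τ.lam * n) ≤ 1 / 2 ^ τ.gexp a n
  card : (τ.cands a n).card ≤ 2 ^ 2 ^ (n / (a + 1))

theorem card_digit_le (b : ℕ) : Fintype.card (Digit b) ≤ 2 ^ (2 * b + 2) := by
  rw [Fintype.card_fin, pow_add, pow_mul]
  norm_num
  have : 0 < 4 ^ b := pow_pos (by norm_num) b
  omega

theorem card_instr_le (d m k b : ℕ) :
    Fintype.card (Instr d m k b) ≤ 2 ^ (m + (2 * b + 2) * (d + nTerms d k * d)) := by
  have h1 : m ≤ 2 ^ m := Nat.lt_two_pow_self.le
  have h2 := card_digit_le b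
  simp only [Fintype.card_prod, Fintype.card_pi, Finset.prod_const, Finset.card_univ,
    Fintype.card_fin] at *
  set D := 2 * 4 ^ b + 1 with hD
  have h4 : ∏ i : Fin (k + 1), (D ^ d) ^ d ^ (i : ℕ) ≤ D ^ (nTerms d k * d) := by
    calc _ ≤ ∏ _i : Fin (k + 1), D ^ (d * (d + 1) ^ k) := by
          refine Finset.prod_le_prod (fun i _ => Nat.zero_le _) fun i _ => ?_
          rw [← pow_mul]
          exact Nat.pow_le_pow_right (by omega) (Nat.mul_le_mul_left _
            ((Nat.pow_le_pow_left (Nat.le_succ d) _).trans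
              (Nat.pow_le_pow_right (Nat.succ_pos d) (Nat.lt_succ_iff.1 i.2))))
      _ = D ^ (nTerms d k * d) := by
          rw [Finset.prod_const, Finset.card_univ, Fintype.card_fin, ← pow_mul]
          congr 1
          simp [nTerms]
          ring
  calc _ ≤ 2 ^ m * (D ^ d * D ^ (nTerms d k * d)) :=
        Nat.mul_le_mul h1 (Nat.mul_le_mul_left _ h4)
    _ = 2 ^ m * D ^ (d + nTerms d k * d) := by rw [← pow_add]
    _ ≤ 2 ^ m * (2 ^ (2 * b + 2)) ^ (d + nTerms d k * d) :=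
        Nat.mul_le_mul_left _ (Nat.pow_le_pow_left h2 _)
    _ = _ := by rw [← pow_mul, ← pow_add]

theorem eventually_mul_le_two_pow (c : ℕ) :
    ∀ᶠ r : ℕ in atTop, c * (r + 1) ≤ 2 ^ r := by
  refine eventually_atTop.2 ⟨8 * c + 8, fun r hr => ?_⟩
  have h1 : r / 2 < 2 ^ (r / 2) := Nat.lt_two_pow_self
  have h2 : r - r / 2 < 2 ^ (r - r / 2) := Nat.lt_two_pow_self
  have h3 : 2 ^ r = 2 ^ (r / 2) * 2 ^ (r - r / 2) := by
    rw [← pow_add]; congr 1; omega
  rw [h3]
  refine le_trans ?_ (Nat.mul_le_mul h1.le h2.le)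
  have h4 : 4 * c ≤ r / 2 := by omega
  have h5 : r + 1 ≤ 4 * (r - r / 2) := by omega
  calc c * (r + 1) ≤ c * (4 * (r - r / 2)) := Nat.mul_le_mul_left _ h5
    _ = (4 * c) * (r - r / 2) := by ring
    _ ≤ _ := Nat.mul_le_mul_right _ h4

theorem tendsto_gexp : Tendsto (τ.gexp a) atTop atTop :=
  tendsto_atTop_atTop.2 fun c => ⟨c * τ.div a, fun n hn =>
    (Nat.le_div_iff_mul_le (by simp [div])).2 hn⟩

theorem eventually_card :
    ∀ᶠ n in atTop, (τ.cands a n).card ≤ 2 ^ 2 ^ (n / (a + 1)) := by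
  set c0 := τ.d + nTerms τ.d (τ.deg a) * τ.d with hc0
  set W := (4 * (τ.P + 1)) ^ τ.d with hW
  set c := τ.m * W * ((τ.m + 2 * c0 + 8 * τ.lam * c0) * (2 * (a + 1))) with hc
  have hq : Tendsto (fun n : ℕ => n / (a + 1)) atTop atTop :=
    tendsto_atTop_atTop.2 fun x => ⟨x * (a + 1), fun n hn =>
      (Nat.le_div_iff_mul_le (Nat.succ_pos a)).2 hn⟩
  have hh : Tendsto (fun q : ℕ => q / 2) atTop atTop :=
    tendsto_atTop_atTop.2 fun x => ⟨x * 2, fun n hn => (Nat.le_div_iff_mul_le (by norm_num)).2 hn⟩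
  filter_upwards [(hh.comp hq).eventually (eventually_mul_le_two_pow (3 * c))] with n hn
  set q := n / (a + 1) with hq'
  simp only [Function.comp] at hn
  have hg : τ.gexp a n = q / (4 * (τ.d + 1)) := by
    rw [gexp, div, hq', Nat.div_div_eq_div_mul]
  have hdg : τ.d * τ.gexp a n ≤ q / 2 := by
    have h := Nat.div_mul_le_self q (4 * (τ.d + 1))
    rw [Nat.le_div_iff_mul_le (by norm_num)]
    rw [hg]
    nlinarith
  have hnq : n + 1 ≤ (q + 1) * (a + 1) := Nat.lt_div_mul_add (Nat.succ_pos a) |>.trans_le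
    (by rw [hq', Nat.succ_mul, Nat.succ_eq_add_one])
  have hcells : Fintype.card (Cell τ.d τ.P (τ.gexp a n)) ≤ W * 2 ^ (τ.d * τ.gexp a n) := by
    simp only [Fintype.card_pi, Finset.prod_const, Finset.card_univ, Fintype.card_fin]
    rw [hW, mul_comm τ.d (τ.gexp a n), pow_mul, ← mul_pow]
    refine Nat.pow_le_pow_left ?_ _
    have : 1 ≤ 2 ^ τ.gexp a n := Nat.one_le_two_pow
    nlinarith
  refine (τ.card_cands_le a n).trans ?_
  have hcode : Fintype.card (τ.CodeAt a n) ≤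
      2 ^ ((τ.m + (2 * τ.bits n + 2) * c0) *
        (Fintype.card (Cell τ.d τ.P (τ.gexp a n)) * τ.m)) := by
    rw [Fintype.card_fun, Fintype.card_fun, Fintype.card_fin, ← pow_mul, pow_mul 2 (τ.m + _)]
    exact Nat.pow_le_pow_left (card_instr_le _ _ _ _) _
  refine hcode.trans (Nat.pow_le_pow_right (by norm_num) ?_)
  calc (τ.m + (2 * τ.bits n + 2) * c0) * (Fintype.card (Cell τ.d τ.P (τ.gexp a n)) * τ.m)
      ≤ ((τ.m + 2 * c0 + 8 * τ.lam * c0) * (n + 1)) * (W * 2 ^ (q / 2) * τ.m) := by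
        refine Nat.mul_le_mul ?_ (Nat.mul_le_mul_right _ (hcells.trans
          (Nat.mul_le_mul_left _ (Nat.pow_le_pow_right (by norm_num) hdg))))
        rw [bits]
        nlinarith
    _ ≤ ((τ.m + 2 * c0 + 8 * τ.lam * c0) * ((q + 1) * (a + 1))) * (W * 2 ^ (q / 2) * τ.m) :=
        Nat.mul_le_mul_right _ (Nat.mul_le_mul_left _ hnq)
    _ ≤ (3 * c * (q / 2 + 1)) * 2 ^ (q / 2) := by
        have h2 : q + 1 ≤ 2 * (q / 2 + 1) := by omega
        calc _ ≤ ((τ.m + 2 * c0 + 8 * τ.lam * c0) * (2 * (q / 2 + 1) * (a + 1))) *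
              (W * 2 ^ (q / 2) * τ.m) :=
              Nat.mul_le_mul_right _ (Nat.mul_le_mul_left _ (Nat.mul_le_mul_right _ h2))
          _ = (τ.m * W * ((τ.m + 2 * c0 + 8 * τ.lam * c0) * (2 * (a + 1))) * (q / 2 + 1)) *
              2 ^ (q / 2) := by ring
          _ = c * (q / 2 + 1) * 2 ^ (q / 2) := by rw [hc]
          _ ≤ _ := Nat.mul_le_mul_right _ (Nat.mul_le_mul_right _ (by omega))
    _ ≤ 2 ^ (q / 2) * 2 ^ (q / 2) := Nat.mul_le_mul_right _ hn
    _ ≤ 2 ^ q := by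
        rw [← pow_add]
        exact Nat.pow_le_pow_right (by norm_num) (by omega)

theorem eventually_const_le_two_pow (x : ℝ) {f : ℕ → ℕ} (hf : Tendsto f atTop atTop) :
    ∀ᶠ n in atTop, x ≤ 2 ^ f n :=
  ((tendsto_pow_atTop_atTop_of_one_lt one_lt_two).comp hf).eventually_ge_atTop x

theorem eventually_fit (B : ℕ → ℕ) : ∀ᶠ n in atTop, τ.Fit a B n := by
  set k := τ.deg a with hk
  set A : ℝ := (coefBound B τ.P k : ℝ) with hA
  set T : ℝ := (nTerms τ.d k : ℝ) + τ.P * τ.d + 1 with hT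
  set Cst : ℝ := T + A * 8 ^ (k + 1) * 2 ^ (2 * τ.lam * τ.div a) with hCst
  have hA0 : 0 ≤ A := by positivity
  have hT0 : 0 ≤ T := by positivity
  have hlam : 3 ≤ τ.lam := by simp [lam]
  have hb : Tendsto τ.bits atTop atTop :=
    tendsto_atTop_mono (fun n => Nat.le_mul_of_pos_left n (by positivity)) tendsto_id
  filter_upwards [eventually_const_le_two_pow A hb, eventually_const_le_two_pow τ.P hb,
    eventually_const_le_two_pow ((nTerms τ.d k : ℝ) * (A * k * 8)) (τ.tendsto_gexp a),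
    (τ.tendsto_gexp a).eventually_ge_atTop τ.J, (τ.tendsto_gexp a).eventually_ge_atTop 3,
    eventually_const_le_two_pow Cst tendsto_id, τ.eventually_card a]
    with n h1 h2 h3 h4 h5 h6 h7
  simp only [id] at h6
  refine ⟨h1, h2, ?_, h4, h5, ?_, h7⟩
  · rw [← hk, ← hA]
    have e : (nTerms τ.d k : ℝ) * (A * k * (8 / 2 ^ τ.gexp a n)) =
        (nTerms τ.d k : ℝ) * (A * k * 8) / 2 ^ τ.gexp a n := by ring
    rw [e, div_le_one (by positivity)]
    exact h3
  · rw [eta, ← hk, ← hA, ← hT]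
    set g := τ.gexp a n with hg
    have hgn : g ≤ n := Nat.div_le_self _ _
    have hgdiv : n ≤ τ.div a * g + τ.div a := by
      have h := Nat.lt_div_mul_add (a := n) (b := τ.div a) (by simp [div])
      rw [hg, gexp, mul_comm]
      omega
    rw [le_div_iff₀ (by positivity)]
    have p1 : T / 2 ^ τ.bits n * 2 ^ (τ.lam * n) * 2 ^ g ≤ T / 2 ^ n := by
      rw [div_mul_eq_mul_div, div_mul_eq_mul_div, div_le_div_iff₀ (by positivity) (by positivity),
        mul_assoc, mul_assoc]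
      refine mul_le_mul_of_nonneg_left ?_ hT0
      rw [← pow_add, ← pow_add]
      exact pow_le_pow_right₀ one_le_two (by rw [bits]; nlinarith)
    have p2 : A * (8 / 2 ^ g) ^ (k + 1) * 2 ^ (τ.lam * n) * 2 ^ g ≤
        A * 8 ^ (k + 1) * 2 ^ (2 * τ.lam * τ.div a) / 2 ^ n := by
      rw [div_pow, ← pow_mul, mul_div_assoc', div_mul_eq_mul_div, div_mul_eq_mul_div,
        div_le_div_iff₀ (by positivity) (by positivity), mul_assoc, mul_assoc, mul_assoc,
        mul_assoc (A * 8 ^ (k + 1)) (2 ^ (2 * τ.lam * τ.div a)) _, ← mul_assoc A]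
      refine mul_le_mul_of_nonneg_left ?_ (by positivity)
      rw [← pow_add, ← pow_add, ← pow_add]
      refine pow_le_pow_right₀ one_le_two ?_
      rw [hk, deg]
      nlinarith
    have hsum : T / 2 ^ n + A * 8 ^ (k + 1) * 2 ^ (2 * τ.lam * τ.div a) / 2 ^ n ≤ 1 := by
      rw [← add_div, div_le_one (by positivity)]
      exact h6
    calc _ = T / 2 ^ τ.bits n * 2 ^ (τ.lam * n) * 2 ^ g +
          A * (8 / 2 ^ g) ^ (k + 1) * 2 ^ (τ.lam * n) * 2 ^ g := by ring
      _ ≤ _ := (add_le_add p1 p2).trans hsum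

end Tau

end Vale.Agent.P109
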