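import Vale.Agent.P109.Families

/-!
P109, model side: an abstract model with bounded derivative growth is followed by the programs, so
its name law is close to a candidate.
-/

open MeasureTheory Filter

namespace Vale.Agent.P109

/-- An abstract model of a map `S` preserving `ν`, together with a name function `Q`: pieces, local
polynomial approximations with the growth bound `B`, a continuous approximation `f` of the names
and densities of the pieces. -/
structure Pieces (B : ℕ → ℕ) (τ : Tau) {X : Type} [MeasurableSpace X] (ν : Measure X) (S : X → X)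
    (Q : X → Fin q₀) where
  ψ : Fin τ.m → Vec τ.d → X
  K : Fin τ.m → Set (Vec τ.d)
  norm_le : ∀ i, ∀ v ∈ K i, ‖v‖ ≤ τ.P
  step : ∀ i, ∀ v ∈ K i, ∃ (j : Fin τ.m) (g : Vec τ.d → Vec τ.d), ∀ k, ∃ c : Coef τ.d k,
    (∀ r w, ‖c r w‖ ≤ Tau.coefBound B τ.P k) ∧
    (∀ r : Fin (k + 1), (r : ℕ) = 1 → ∀ w, ‖c r w‖ ≤ τ.P) ∧
    ∀ u ∈ K i, ‖u - v‖ ≤ 4 / 2 ^ τ.J →
      g u ∈ K j ∧ ψ j (g u) = S (ψ i u) ∧
      ‖g u - peval c (u - v)‖ ≤ Tau.coefBound B τ.P k * ‖u - v‖ ^ (k + 1)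
  f : X → ℝ
  f_meas : Measurable f
  f_int : Integrable (fun x => |f x - (Q x : ℕ)|) ν
  f_close : ∫ x, |f x - (Q x : ℕ)| ∂ν ≤ 1 / 4096
  f_unif : ∀ i, ∀ u ∈ K i, ∀ v ∈ K i, ‖u - v‖ ≤ 4 / 2 ^ τ.J → |f (ψ i u) - f (ψ i v)| < 1 / 4
  tab_eq : ∀ i c, (∃ v ∈ K i, ‖corner c - v‖ ≤ 2 / 2 ^ τ.J) →
    ∃ v ∈ K i, ‖corner c - v‖ ≤ 2 / 2 ^ τ.J ∧
      ∀ a : Fin q₀, |f (ψ i v) - (a : ℕ)| < 1 / 2 → τ.tab i c = a
  ρ : Fin τ.m → Vec τ.d → ℝ
  ρ_int : ∀ i, Integrable (ρ i) volume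
  ρ_nonneg : ∀ i u, 0 ≤ ρ i u
  ρ_mass : ∑ i, ∫ u, ρ i u ≤ 1
  ρ_dom : ∀ s, MeasurableSet s → ν.real s ≤ ∑ i, ∫ u in ψ i ⁻¹' s ∩ K i, ρ i u
  dens_close : ∑ i, ∫ u, |ρ i u - densAt τ.d (τ.dens i) u| ≤ 1 / 32

theorem measurable_names (τ : Tau) (a : ℕ) {n : ℕ} (p : τ.CodeAt a n) :
    Measurable fun s => τ.names a p s := by
  refine measurable_pi_lambda _ fun t => ?_
  have h1 : Measurable fun q : Fin τ.m × Cell τ.d τ.P τ.J => τ.tab q.1 q.2 :=
    measurable_of_countable _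
  have h2 : Measurable ((progStep p)^[(t : ℕ)]) := (measurable_progStep p).iterate _
  exact h1.comp ((measurable_fst.comp h2).prodMk
    (measurable_cellOf.comp (measurable_snd.comp h2)))

theorem integral_comp_preserving {X : Type} [MeasurableSpace X] {ν : Measure X} {T : X → X}
    (hT : MeasurePreserving T ν ν) {g : X → ℝ} (hg : Measurable g) :
    ∫ x, g (T x) ∂ν = ∫ x, g x ∂ν := by
  have := integral_map (μ := ν) hT.measurable.aemeasurable hg.aestronglyMeasurable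
  rw [hT.map_eq] at this
  exact this.symm

namespace Pieces

variable {B : ℕ → ℕ} {τ : Tau} {X : Type} [MeasurableSpace X] {ν : Measure X} {S : X → X}
  {Q : X → Fin q₀} (M : Pieces B τ ν S Q)

/-- The instruction of the approximating program on one cell. -/
theorem exists_instr {a n : ℕ} (h : τ.Fit a B n) (i : Fin τ.m)
    (c : Cell τ.d τ.P (τ.gexp a n)) (hc : ∃ v ∈ M.K i, ‖corner c - v‖ ≤ 2 / 2 ^ τ.gexp a n) :
    ∃ x : Instr τ.d τ.m (τ.deg a) (τ.bits n), ∀ u ∈ M.K i, ∀ u', ∀ e : ℝ, ‖u' - u‖ ≤ e →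
      e ≤ 1 / 2 ^ τ.gexp a n → ‖corner c - u‖ ≤ 2 / 2 ^ τ.gexp a n →
      ∃ w ∈ M.K x.1, M.ψ x.1 w = S (M.ψ i u) ∧
        ‖peval x.coef (u' - fun l => val (x.2.1 l)) - w‖ ≤
          ((τ.P : ℝ) * τ.d + 1) * e + τ.eta a B n := by
  obtain ⟨v, hv, hcv⟩ := hc
  obtain ⟨j, g, hk⟩ := M.step i v hv
  obtain ⟨cf, hcf, hcf1, hg⟩ := hk (τ.deg a)
  obtain ⟨zv, hzv⟩ := exists_digit_vec (b := τ.bits n) (x := v)
    ((M.norm_le i v hv).trans h.P_le)
  choose zc hzc using fun r w => exists_digit_vec (b := τ.bits n) (x := cf r w)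
    ((hcf r w).trans h.coef_le)
  refine ⟨(j, zv, zc), fun u hu u' e he heg hcu => ?_⟩
  have hp : (0 : ℝ) < 2 ^ (τ.gexp a n) := by positivity
  have hJ : (2 : ℝ) ^ τ.J ≤ 2 ^ (τ.gexp a n) := pow_le_pow_right₀ one_le_two h.grid
  have huv : ‖u - v‖ ≤ 4 / 2 ^ (τ.gexp a n) := by
    calc ‖u - v‖ = ‖(corner c - v) - (corner c - u)‖ := by rw [sub_sub_sub_cancel_left]
      _ ≤ ‖corner c - v‖ + ‖corner c - u‖ := norm_sub_le _ _
      _ ≤ 2 / 2 ^ (τ.gexp a n) + 2 / 2 ^ (τ.gexp a n) := add_le_add hcv hcu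
      _ = 4 / 2 ^ (τ.gexp a n) := by ring
  obtain ⟨hgK, hψ, hrem⟩ := hg u hu
    (huv.trans (div_le_div_of_nonneg_left (by norm_num) (by positivity) hJ))
  refine ⟨g u, hgK, hψ, ?_⟩
  have hb : (2 : ℝ) ^ (τ.gexp a n) ≤ 2 ^ τ.bits n := by
    refine pow_le_pow_right₀ one_le_two ?_
    rw [Tau.gexp, Tau.bits]
    exact (Nat.div_le_self _ _).trans (Nat.le_mul_of_pos_left _ (by simp [Tau.lam]))
  have he0 : 0 ≤ e := (norm_nonneg _).trans he
  have hR : (8 : ℝ) / 2 ^ (τ.gexp a n) ≤ 1 := by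
    rw [div_le_one hp]
    calc (8 : ℝ) = 2 ^ 3 := by norm_num
      _ ≤ 2 ^ (τ.gexp a n) := pow_le_pow_right₀ one_le_two h.eight
  have hvv : ‖(fun l => val (zv l)) - v‖ ≤ 1 / 2 ^ (τ.gexp a n) :=
    hzv.trans (one_div_le_one_div_of_le hp hb)
  have hd : ‖(u' - fun l => val (zv l)) - (u - v)‖ ≤ e + 1 / 2 ^ τ.bits n := by
    rw [sub_sub_sub_comm]
    exact (norm_sub_le _ _).trans (add_le_add he hzv)
  have hh' : ‖u' - fun l => val (zv l)‖ ≤ 8 / 2 ^ (τ.gexp a n) := by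
    calc _ = ‖(u' - u) + (u - v) - ((fun l => val (zv l)) - v)‖ := by congr 1; abel
      _ ≤ ‖(u' - u) + (u - v)‖ + ‖(fun l => val (zv l)) - v‖ := norm_sub_le _ _
      _ ≤ (1 / 2 ^ (τ.gexp a n) + 4 / 2 ^ (τ.gexp a n)) + 1 / 2 ^ (τ.gexp a n) :=
          add_le_add ((norm_add_le _ _).trans (add_le_add (he.trans heg) huv)) hvv
      _ ≤ 8 / 2 ^ (τ.gexp a n) := by
          rw [← add_div, ← add_div]
          gcongr
          norm_num
  have hst := peval_stable cf (Instr.coef (j, zv, zc)) (u - v) (u' - fun l => val (zv l))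
    (η := 1 / 2 ^ τ.bits n) hcf hcf1 (Nat.cast_nonneg _) hR
    (fun r w => hzc r w) (by positivity)
    (huv.trans (by gcongr; norm_num)) hh' hd h.small
  have hrem' : ‖g u - peval cf (u - v)‖ ≤
      Tau.coefBound B τ.P (τ.deg a) * (8 / 2 ^ (τ.gexp a n)) ^ (τ.deg a + 1) :=
    hrem.trans (by gcongr; exact huv.trans (by gcongr; norm_num))
  calc ‖peval (Instr.coef (j, zv, zc)) (u' - fun l => val (zv l)) - g u‖
      = ‖(peval (Instr.coef (j, zv, zc)) (u' - fun l => val (zv l)) - peval cf (u - v)) -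
          (g u - peval cf (u - v))‖ := by rw [sub_sub_sub_cancel_right]
    _ ≤ _ := (norm_sub_le _ _).trans (add_le_add hst hrem')
    _ = _ := by rw [Tau.eta]; ring

/-- The program follows the orbits. -/
theorem exists_code (hm : 0 < τ.m) {a n : ℕ} (h : τ.Fit a B n) :
    ∃ p : τ.CodeAt a n, ∀ i, ∀ u ∈ M.K i, ∀ t ≤ n, ∃ w ∈ M.K ((progStep p)^[t] (i, u)).1,
      M.ψ ((progStep p)^[t] (i, u)).1 w = S^[t] (M.ψ i u) ∧
        ‖((progStep p)^[t] (i, u)).2 - w‖ ≤ 1 / 2 ^ τ.gexp a n := by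
  classical
  have : Inhabited (Fin τ.m) := ⟨⟨0, hm⟩⟩
  let p : τ.CodeAt a n := fun i c =>
    if hc : ∃ v ∈ M.K i, ‖corner c - v‖ ≤ 2 / 2 ^ τ.gexp a n
    then (M.exists_instr h i c hc).choose
    else (default, fun _ => 0, fun _ _ _ => 0)
  refine ⟨p, fun i u hu => ?_⟩
  have heta : 0 ≤ τ.eta a B n := by unfold Tau.eta; positivity
  set L : ℝ := (τ.P : ℝ) * τ.d + 2 with hL
  have hPd : (0 : ℝ) ≤ τ.P * τ.d := by positivity
  have hL2 : 2 ≤ L := by rw [hL]; linarith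
  have hsmall : ∀ t ≤ n, τ.eta a B n * L ^ t ≤ 1 / 2 ^ τ.gexp a n := by
    intro t ht
    refine le_trans ?_ h.err
    refine mul_le_mul_of_nonneg_left ?_ heta
    have h1 : L ≤ 2 ^ τ.lam := by
      have hn : τ.lam < 2 ^ τ.lam := Nat.lt_two_pow_self
      have : (τ.lam : ℝ) ≤ 2 ^ τ.lam := by exact_mod_cast hn.le
      refine le_trans ?_ this
      rw [hL, Tau.lam]
      push_cast
      linarith [(Nat.cast_nonneg τ.P : (0 : ℝ) ≤ τ.P)]
    calc L ^ t ≤ L ^ n := pow_le_pow_right₀ (by linarith) ht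
      _ ≤ (2 ^ τ.lam) ^ n := pow_le_pow_left₀ (by linarith) h1 n
      _ = 2 ^ (τ.lam * n) := (pow_mul _ _ _).symm
  have key : ∀ t ≤ n, ∃ w ∈ M.K ((progStep p)^[t] (i, u)).1,
      M.ψ ((progStep p)^[t] (i, u)).1 w = S^[t] (M.ψ i u) ∧
        ‖((progStep p)^[t] (i, u)).2 - w‖ ≤ τ.eta a B n * L ^ t := by
    intro t
    induction t with
    | zero => exact fun _ => ⟨u, hu, rfl, by simpa using heta⟩
    | succ t ih =>
      intro ht
      obtain ⟨w, hw, hψ, hd⟩ := ih (by omega)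
      rw [Function.iterate_succ_apply', Function.iterate_succ_apply']
      set s := (progStep p)^[t] (i, u) with hs
      have he := hsmall t (by omega)
      have hcw : ‖corner (cellOf τ.P (τ.gexp a n) s.2) - w‖ ≤ 2 / 2 ^ τ.gexp a n := by
        have hc := norm_corner_sub (g := τ.gexp a n) (u := s.2) (v := w)
          (e := τ.eta a B n * L ^ t) (by rw [norm_sub_rev]; exact hd) (M.norm_le _ w hw)
        calc _ = ‖(corner (cellOf τ.P (τ.gexp a n) s.2) - s.2) + (s.2 - w)‖ := by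
              rw [sub_add_sub_cancel]
          _ ≤ (1 / 2 ^ τ.gexp a n + τ.eta a B n * L ^ t) + τ.eta a B n * L ^ t :=
              (norm_add_le _ _).trans (add_le_add hc hd)
          _ ≤ 2 / 2 ^ τ.gexp a n := by
              have h2 := hsmall (t + 1) ht
              have h3 : 0 ≤ τ.eta a B n * L ^ t := by positivity
              have h4 : τ.eta a B n * L ^ (t + 1) = τ.eta a B n * L ^ t * L := by ring
              have h5 : (2 : ℝ) / 2 ^ τ.gexp a n = 1 / 2 ^ τ.gexp a n + 1 / 2 ^ τ.gexp a n := by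
                ring
              rw [h4] at h2
              nlinarith
      have hex : ∃ v ∈ M.K s.1, ‖corner (cellOf τ.P (τ.gexp a n) s.2) - v‖ ≤
          2 / 2 ^ τ.gexp a n := ⟨w, hw, hcw⟩
      have hp : p s.1 (cellOf τ.P (τ.gexp a n) s.2) =
          (M.exists_instr h s.1 _ hex).choose := dif_pos hex
      obtain ⟨w', hw', hψ', hd'⟩ := (M.exists_instr h s.1 _ hex).choose_spec w hw s.2 _ hd he hcw
      rw [← hp] at hw' hψ' hd'
      refine ⟨w', hw', hψ'.trans (congrArg S hψ), hd'.trans ?_⟩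
      have hone : 1 ≤ L ^ t := one_le_pow₀ (by linarith)
      calc ((τ.P : ℝ) * τ.d + 1) * (τ.eta a B n * L ^ t) + τ.eta a B n
          ≤ ((τ.P : ℝ) * τ.d + 1) * (τ.eta a B n * L ^ t) + τ.eta a B n * L ^ t :=
            add_le_add le_rfl (le_mul_of_one_le_right heta hone)
        _ = τ.eta a B n * L ^ (t + 1) := by rw [hL]; ring
  intro t ht
  obtain ⟨w, hw, hψ, hd⟩ := key t ht
  exact ⟨w, hw, hψ, hd.trans (hsmall t ht)⟩

/-- The name of a tracked point. -/
theorem tab_eq_of_near {i : Fin τ.m} {w u' : Vec τ.d} (hw : w ∈ M.K i)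
    (hd : ‖u' - w‖ ≤ 1 / 2 ^ (τ.J + 1)) (hQ : |M.f (M.ψ i w) - (Q (M.ψ i w) : ℕ)| < 1 / 4) :
    τ.tab i (cellOf τ.P τ.J u') = Q (M.ψ i w) := by
  set c := cellOf τ.P τ.J u' with hc'
  have hc := norm_corner_sub (g := τ.J) (u := u') (v := w) (e := 1 / 2 ^ (τ.J + 1))
    (by rwa [norm_sub_rev]) (M.norm_le _ w hw)
  have hcw : ‖corner c - w‖ ≤ 2 / 2 ^ τ.J := by
    calc _ = ‖(corner c - u') + (u' - w)‖ := by rw [sub_add_sub_cancel]
      _ ≤ (1 / 2 ^ τ.J + 1 / 2 ^ (τ.J + 1)) + 1 / 2 ^ (τ.J + 1) :=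
          (norm_add_le _ _).trans (add_le_add hc hd)
      _ = 2 / 2 ^ τ.J := by rw [pow_succ]; ring
  obtain ⟨v, hv, hcv, htab⟩ := M.tab_eq i c ⟨w, hw, hcw⟩
  refine htab _ ?_
  have hwv : ‖w - v‖ ≤ 4 / 2 ^ τ.J := by
    calc ‖w - v‖ = ‖(corner c - v) - (corner c - w)‖ := by rw [sub_sub_sub_cancel_left]
      _ ≤ 2 / 2 ^ τ.J + 2 / 2 ^ τ.J := (norm_sub_le _ _).trans (add_le_add hcv hcw)
      _ = 4 / 2 ^ τ.J := by ring
  have := M.f_unif i v hv w hw (by rwa [norm_sub_rev])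
  calc |M.f (M.ψ i v) - (Q (M.ψ i w) : ℕ)|
      ≤ |M.f (M.ψ i v) - M.f (M.ψ i w)| + |M.f (M.ψ i w) - (Q (M.ψ i w) : ℕ)| :=
        abs_sub_le _ _ _
    _ < 1 / 2 := by linarith

include M in
/-- The name law of a model is close to a candidate. -/
theorem exists_close [IsProbabilityMeasure ν] (hS : MeasurePreserving S ν ν) (hQ : Measurable Q)
    (hm : 0 < τ.m) {a n : ℕ} (h : τ.Fit a B n) (hJ : τ.J + 1 ≤ τ.gexp a n) :
    ∃ q ∈ τ.cands a n, ∀ A : Finset (Word n),
      ν.real {x | (fun t : Fin n => Q (S^[(t : ℕ)] x)) ∈ A} ≤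
        (∑ z ∈ near (1 / 16) A, q z) + 1 / 16 := by
  classical
  obtain ⟨p, hp⟩ := M.exists_code hm h
  have hn : 0 < n := by
    have h8 := h.eight
    by_contra h0
    simp [Tau.gexp, Nat.le_zero.1 (not_lt.1 h0)] at h8
  set D : Fin τ.m → Vec τ.d → ℝ := fun i u => max (densAt τ.d (τ.dens i) u) 0 with hD
  have hdi : ∀ i, Integrable (densAt τ.d (τ.dens i)) volume := fun i =>
    L1.integrable_coeFn _
  have hDi : ∀ i, Integrable (D i) volume := fun i => (hdi i).pos_part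
  have habs : ∀ i, Integrable (fun u => |M.ρ i u - densAt τ.d (τ.dens i) u|) volume :=
    fun i => ((M.ρ_int i).sub (hdi i)).abs
  have hDdiff : ∀ i u, |M.ρ i u - D i u| ≤ |M.ρ i u - densAt τ.d (τ.dens i) u| := by
    intro i u
    have h0 := M.ρ_nonneg i u
    have e : D i u = max (densAt τ.d (τ.dens i) u) 0 := rfl
    have e2 : M.ρ i u = max (M.ρ i u) 0 := (max_eq_left h0).symm
    rw [e]
    conv_lhs => rw [e2]
    exact abs_max_sub_max_le_abs _ _ _
  have hlaw : ∀ Z : Finset (Word n), ∑ z ∈ Z, τ.law a p z =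
      ∑ i, ∫ u in {u | τ.names a p (i, u) ∈ Z}, D i u := by
    intro Z
    unfold Tau.law
    rw [Finset.sum_comm]
    refine Finset.sum_congr rfl fun i _ => ?_
    have hmeas : Measurable fun u => τ.names a p (i, u) :=
      (measurable_names τ a p).comp (measurable_const.prodMk measurable_id)
    have e : {u | τ.names a p (i, u) ∈ Z} = ⋃ z ∈ Z, {u | τ.names a p (i, u) = z} := by
      ext u; simp
    rw [e]
    refine (integral_biUnion_finset (f := D i) _
      (fun z _ => hmeas (measurableSet_singleton z)) ?_ ?_).symm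
    · intro z _ z' _ hne
      exact Set.disjoint_left.2 fun u hu hu' => hne (hu.symm.trans hu')
    · exact fun z _ => (hDi i).integrableOn
  have hsub : Subprob (τ.law a p) := by
    refine ⟨fun z => Finset.sum_nonneg fun i _ => integral_nonneg fun u => le_max_right _ _, ?_⟩
    rw [hlaw Finset.univ]
    simp only [Finset.mem_univ, Set.ofPred_true, setIntegral_univ]
    calc ∑ i, ∫ u, D i u
        ≤ ∑ i, ((∫ u, M.ρ i u) + ∫ u, |M.ρ i u - densAt τ.d (τ.dens i) u|) := by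
          refine Finset.sum_le_sum fun i _ => ?_
          rw [← integral_add (M.ρ_int i) (habs i)]
          refine integral_mono (hDi i) ((M.ρ_int i).add (habs i)) fun u => ?_
          have := abs_le.1 (hDdiff i u)
          simp only
          linarith
      _ ≤ 1 + 1 / 32 := by rw [Finset.sum_add_distrib]; exact add_le_add M.ρ_mass M.dens_close
      _ ≤ 2 := by norm_num
  refine ⟨τ.law a p, (τ.mem_cands a).2 ⟨⟨p, rfl⟩, hsub⟩, fun A => ?_⟩
  set ev := {x | (fun t : Fin n => Q (S^[(t : ℕ)] x)) ∈ A} with hev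
  set E : X → ℝ := fun x => ∑ t : Fin n, |M.f (S^[(t : ℕ)] x) - (Q (S^[(t : ℕ)] x) : ℕ)| with hE
  set bad := {x | (n : ℝ) / 64 ≤ E x} with hbad
  have hg : Measurable fun x => |M.f x - (Q x : ℕ)| :=
    (M.f_meas.sub ((measurable_of_countable fun q : Fin q₀ => ((q : ℕ) : ℝ)).comp hQ)).norm
  have hEm : Measurable E :=
    Finset.measurable_sum _ fun t _ => hg.comp (hS.measurable.iterate _)
  have hevm : MeasurableSet ev :=
    (measurable_pi_lambda _ fun t => hQ.comp (hS.measurable.iterate _)) A.finite_toSet.measurableSet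
  have hbadm : MeasurableSet bad := measurableSet_le measurable_const hEm
  have hbadν : ν.real bad ≤ 1 / 64 := by
    have hti : ∀ t : Fin n,
        Integrable (fun x => |M.f (S^[(t : ℕ)] x) - (Q (S^[(t : ℕ)] x) : ℕ)|) ν :=
      fun t => (hS.iterate t).integrable_comp_of_integrable M.f_int
    have hEi : Integrable E ν := integrable_finsetSum _ fun t _ => hti t
    have h1 := mul_meas_ge_le_integral_of_nonneg (μ := ν) (f := E)
      (Eventually.of_forall fun x => Finset.sum_nonneg fun t _ => abs_nonneg _) hEi ((n : ℝ) / 64)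
    have h2 : ∫ x, E x ∂ν ≤ n * (1 / 4096) := by
      rw [hE, integral_finsetSum _ fun t _ => hti t]
      calc _ ≤ ∑ _t : Fin n, (1 / 4096 : ℝ) := Finset.sum_le_sum fun t _ => by
            refine le_trans (le_of_eq ?_) M.f_close
            exact integral_comp_preserving (hS.iterate (t : ℕ)) hg
        _ = _ := by simp
    have hn' : (0 : ℝ) < n := Nat.cast_pos.2 hn
    change (n : ℝ) / 64 * ν.real bad ≤ _ at h1
    nlinarith [h1.trans h2]
  have hsubset : ∀ i, M.ψ i ⁻¹' (ev \ bad) ∩ M.K i ⊆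
      {u | τ.names a p (i, u) ∈ near (1 / 16) A} := by
    intro i u hu
    obtain ⟨⟨hA, hb⟩, hK⟩ := hu
    change _ ∈ near _ _
    simp only [near, Finset.mem_filter, Finset.mem_univ, true_and]
    refine ⟨_, hA, ?_⟩
    have hmis : ∀ t : Fin n, τ.names a p (i, u) t ≠ Q (S^[(t : ℕ)] (M.ψ i u)) →
        1 / 4 ≤ |M.f (S^[(t : ℕ)] (M.ψ i u)) - (Q (S^[(t : ℕ)] (M.ψ i u)) : ℕ)| := by
      intro t ht
      by_contra hlt
      apply ht
      obtain ⟨w, hw, hψ, hd⟩ := hp i u hK t t.2.le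
      have hd' : ‖((progStep p)^[(t : ℕ)] (i, u)).2 - w‖ ≤ 1 / 2 ^ (τ.J + 1) :=
        hd.trans (one_div_le_one_div_of_le (by positivity) (pow_le_pow_right₀ one_le_two hJ))
      have := M.tab_eq_of_near hw hd' (by rw [hψ]; exact not_le.1 hlt)
      rw [hψ] at this
      exact this
    have hle : (hammingDist (τ.names a p (i, u))
        (fun t : Fin n => Q (S^[(t : ℕ)] (M.ψ i u))) : ℝ) * (1 / 4) ≤ E (M.ψ i u) := by
      rw [hammingDist, ← nsmul_eq_mul, ← Finset.sum_const]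
      refine le_trans (Finset.sum_le_sum fun t ht => hmis t (Finset.mem_filter.1 ht).2) ?_
      exact Finset.sum_le_sum_of_subset_of_nonneg (Finset.subset_univ _) fun t _ _ => abs_nonneg _
    have hE' : E (M.ψ i u) < (n : ℝ) / 64 := not_le.1 hb
    linarith
  have hdiff : ν.real ev ≤ ν.real (ev \ bad) + ν.real bad :=
    le_trans (measureReal_mono (fun x hx => by
      by_cases hxb : x ∈ bad
      · exact Or.inr hxb
      · exact Or.inl ⟨hx, hxb⟩)) (measureReal_union_le _ _)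
  calc ν.real ev ≤ ν.real (ev \ bad) + ν.real bad := hdiff
    _ ≤ (∑ i, ∫ u in M.ψ i ⁻¹' (ev \ bad) ∩ M.K i, M.ρ i u) + 1 / 64 :=
        add_le_add (M.ρ_dom _ (hevm.diff hbadm)) hbadν
    _ ≤ (∑ i, ((∫ u in {u | τ.names a p (i, u) ∈ near (1 / 16) A}, D i u) +
          ∫ u, |M.ρ i u - densAt τ.d (τ.dens i) u|)) + 1 / 64 := by
        refine add_le_add (Finset.sum_le_sum fun i _ => ?_) le_rfl
        refine (setIntegral_mono_set (M.ρ_int i).integrableOn
          (Eventually.of_forall fun u => M.ρ_nonneg i u) (hsubset i).eventuallyLE).trans ?_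
        refine le_trans (setIntegral_mono (M.ρ_int i).integrableOn
          ((hDi i).add (habs i)).integrableOn fun u => ?_) ?_
        · change M.ρ i u ≤ D i u + |M.ρ i u - densAt τ.d (τ.dens i) u|
          linarith [(abs_le.1 (hDdiff i u)).2]
        · change ∫ u in _, (D i u + |M.ρ i u - densAt τ.d (τ.dens i) u|) ≤ _
          rw [integral_add (hDi i).integrableOn (habs i).integrableOn]
          exact add_le_add le_rfl (setIntegral_le_integral (habs i)
            (Eventually.of_forall fun u => abs_nonneg _))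
    _ = (∑ z ∈ near (1 / 16) A, τ.law a p z) +
          (∑ i, ∫ u, |M.ρ i u - densAt τ.d (τ.dens i) u|) + 1 / 64 := by
        rw [hlaw, Finset.sum_add_distrib]
    _ ≤ _ := by linarith [M.dens_close]

end Pieces

end Vale.Agent.P109
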