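import Mathlib

/-!
Existence of an ergodic invariant probability measure carried by a closed invariant subset of the
full shift `ℤ → A` (`A` finite): Krylov-Bogolyubov averages and successive maximisation over the
countably many cylinder sets, which ends at an extreme invariant measure.
-/

namespace Vale.Agent.P109

open MeasureTheory Set Filter Topology

variable {A : Type*}

open scoped ENNReal

set_option linter.unusedSectionVars false

/-- The left shift on `ℤ → A`. -/
def shiftZ (x : ℤ → A) : ℤ → A := fun i => x (i + 1)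

/-- The left shift, as an equivalence. -/
def shiftZEquiv (A : Type*) : (ℤ → A) ≃ (ℤ → A) where
  toFun := shiftZ
  invFun x := fun i => x (i - 1)
  left_inv x := by funext i; simp [shiftZ]
  right_inv x := by funext i; simp [shiftZ]

lemma shiftZ_iterate (x : ℤ → A) (n : ℕ) (i : ℤ) : shiftZ^[n] x i = x (i + n) := by
  induction n generalizing i with
  | zero => simp
  | succ n ih =>
    rw [Function.iterate_succ', Function.comp_apply, shiftZ, ih]
    congr 1
    push_cast
    ring

/-- Index type for all cylinder sets of `ℤ → A`. -/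
abbrev CylIdx (A : Type*) := Σ s : Finset ℤ, Set (s → A)

/-- The cylinder set of an index. -/
def cylSet (C : CylIdx A) : Set (ℤ → A) := cylinder C.1 C.2

variable [MeasurableSpace A] [MeasurableSingletonClass A] [Finite A] [TopologicalSpace A]
  [DiscreteTopology A]

lemma measurable_shiftZ : Measurable (shiftZ : (ℤ → A) → (ℤ → A)) :=
  measurable_pi_lambda _ fun _ => measurable_pi_apply _

lemma continuous_shiftZ : Continuous (shiftZ : (ℤ → A) → (ℤ → A)) :=
  continuous_pi fun _ => continuous_apply _

lemma isClopen_cylSet (C : CylIdx A) : IsClopen (cylSet C) := by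
  have : IsClopen C.2 := isClopen_discrete _
  exact this.preimage (continuous_pi fun i => continuous_apply _)

lemma measurableSet_cylSet (C : CylIdx A) : MeasurableSet (cylSet C) :=
  MeasurableSet.cylinder C.1 (Set.toFinite C.2).measurableSet

/-- Mass of a clopen set depends continuously on the probability measure. -/
lemma continuous_real_clopen [BorelSpace (ℤ → A)] {C : Set (ℤ → A)} (hC : IsClopen C) :
    Continuous fun ν : ProbabilityMeasure (ℤ → A) => (ν : Measure (ℤ → A)).real C := by
  have hc : Continuous (C.indicator fun _ => (1 : ℝ)) :=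
    continuous_const.indicator (by simp [hC.frontier_eq])
  let f : BoundedContinuousFunction (ℤ → A) ℝ :=
    BoundedContinuousFunction.mkOfCompact ⟨_, hc⟩
  have key : (fun ν : ProbabilityMeasure (ℤ → A) => (ν : Measure (ℤ → A)).real C) =
      fun ν : ProbabilityMeasure (ℤ → A) => ∫ x, f x ∂(ν : Measure (ℤ → A)) := by
    funext ν
    exact (integral_indicator_one hC.isOpen.measurableSet).symm
  rw [key]
  exact ProbabilityMeasure.continuous_integral_boundedContinuousFunction f

/-- Almost invariant probability measures that vanish on cylinders missing `K`. -/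
def almostInv (K : Set (ℤ → A)) (ε : ℝ) : Set (ProbabilityMeasure (ℤ → A)) :=
  {ν | ∀ C : CylIdx A,
    |(ν : Measure (ℤ → A)).real (shiftZ ⁻¹' cylSet C) - (ν : Measure (ℤ → A)).real (cylSet C)| ≤ ε ∧
    (Disjoint K (cylSet C) → (ν : Measure (ℤ → A)).real (cylSet C) = 0)}

lemma isClosed_almostInv [BorelSpace (ℤ → A)] (K : Set (ℤ → A)) (ε : ℝ) :
    IsClosed (almostInv K ε) := by
  unfold almostInv
  simp only [ofPred_forall]
  refine isClosed_iInter fun C => IsClosed.inter ?_ ?_
  · exact isClosed_le ((continuous_real_clopen ((isClopen_cylSet C).preimage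
      continuous_shiftZ)).sub (continuous_real_clopen (isClopen_cylSet C))).abs continuous_const
  · by_cases h : Disjoint K (cylSet C)
    · simp only [h, true_implies]
      exact isClosed_eq (continuous_real_clopen (isClopen_cylSet C)) continuous_const
    · simp only [h, false_implies]
      exact isClosed_univ

/-- The average of the point masses along the first `n + 1` orbit points. -/
noncomputable def orbitAvg (x : ℤ → A) (n : ℕ) : Measure (ℤ → A) :=
  ((n + 1 : ℝ≥0∞)⁻¹) • ∑ i ∈ Finset.range (n + 1), Measure.dirac (shiftZ^[i] x)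

lemma almostInv_nonempty {K : Set (ℤ → A)} (hK : K.Nonempty) (hinv : MapsTo shiftZ K K) (n : ℕ) :
    (almostInv K (1 / (n + 1 : ℝ))).Nonempty := by
  obtain ⟨x, hx⟩ := hK
  have hreal : ∀ S : Set (ℤ → A), MeasurableSet S → (orbitAvg x n).real S =
      (∑ i ∈ Finset.range (n + 1), S.indicator (fun _ => (1 : ℝ)) (shiftZ^[i] x)) / (n + 1) := by
    intro S hS
    simp only [orbitAvg, measureReal_def, Measure.smul_apply, Measure.finsetSum_apply,
      smul_eq_mul, ENNReal.toReal_mul, ENNReal.toReal_inv]
    rw [ENNReal.toReal_sum (fun i _ => measure_ne_top (Measure.dirac (shiftZ^[i] x)) S)]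
    simp only [Measure.dirac_apply' _ hS]
    rw [div_eq_inv_mul]
    congr 1
    refine Finset.sum_congr rfl fun i _ => ?_
    by_cases h : shiftZ^[i] x ∈ S <;> simp [h]
  have hprob : IsProbabilityMeasure (orbitAvg x n) := by
    refine ⟨?_⟩
    simp only [orbitAvg, Measure.smul_apply, Measure.finsetSum_apply, measure_univ,
      Finset.sum_const, Finset.card_range, nsmul_eq_mul, mul_one, smul_eq_mul]
    push_cast
    exact ENNReal.inv_mul_cancel (by positivity) (by simp)
  refine ⟨⟨orbitAvg x n, hprob⟩, fun C => ⟨?_, fun hd => ?_⟩⟩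
  · simp only [ProbabilityMeasure.coe_mk]
    rw [hreal _ (measurable_shiftZ (measurableSet_cylSet C)), hreal _ (measurableSet_cylSet C),
      ← sub_div, ← Finset.sum_sub_distrib, abs_div, abs_of_pos (by positivity : (0 : ℝ) < n + 1)]
    gcongr
    have : ∀ i, (shiftZ ⁻¹' cylSet C).indicator (fun _ => (1 : ℝ)) (shiftZ^[i] x) =
        (cylSet C).indicator (fun _ => (1 : ℝ)) (shiftZ^[i + 1] x) := fun i => by
      rw [Function.iterate_succ_apply']
      rfl
    simp only [this]
    rw [Finset.sum_range_sub fun i => (cylSet C).indicator (fun _ => (1 : ℝ)) (shiftZ^[i] x)]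
    rw [abs_le]
    constructor <;>
      linarith [indicator_nonneg (s := cylSet C) (f := fun _ => (1 : ℝ)) (fun _ _ => zero_le_one)
          (shiftZ^[n + 1] x),
        indicator_nonneg (s := cylSet C) (f := fun _ => (1 : ℝ)) (fun _ _ => zero_le_one)
          (shiftZ^[0] x),
        indicator_le_self' (s := cylSet C) (f := fun _ => (1 : ℝ)) (fun _ _ => zero_le_one)
          (shiftZ^[n + 1] x),
        indicator_le_self' (s := cylSet C) (f := fun _ => (1 : ℝ)) (fun _ _ => zero_le_one)
          (shiftZ^[0] x)]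
  · simp only [ProbabilityMeasure.coe_mk]
    rw [hreal _ (measurableSet_cylSet C)]
    have : ∀ i, shiftZ^[i] x ∉ cylSet C := fun i =>
      Set.disjoint_left.mp hd (hinv.iterate i hx)
    simp [this]

/-- **Ergodic measures on subshifts.** A nonempty closed shift-invariant set of `ℤ → A` carries
an ergodic invariant probability measure. -/
theorem exists_ergodic {K : Set (ℤ → A)} (hKc : IsClosed K) (hK : K.Nonempty)
    (hinv : MapsTo shiftZ K K) :
    ∃ μ : Measure (ℤ → A), IsProbabilityMeasure μ ∧ Ergodic shiftZ μ ∧ μ Kᶜ = 0 := by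
  haveI : BorelSpace (ℤ → A) := Pi.borelSpace
  haveI : Countable (CylIdx A) := inferInstance
  obtain ⟨e, he⟩ := exists_surjective_nat (CylIdx A)
  -- invariant measures
  set S₀ := ⋂ n : ℕ, almostInv K (1 / (n + 1 : ℝ)) with hS₀
  have hS₀ne : S₀.Nonempty := by
    refine IsCompact.nonempty_iInter_of_sequence_nonempty_isCompact_isClosed _ (fun n => ?_)
      (fun n => almostInv_nonempty hK hinv n) (isClosed_almostInv K _).isCompact
      (fun n => isClosed_almostInv K _)
    intro ν hν C
    refine ⟨(hν C).1.trans ?_, (hν C).2⟩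
    push_cast
    gcongr
    linarith
  have hS₀c : IsClosed S₀ := isClosed_iInter fun n => isClosed_almostInv K _
  -- successive maximisation
  let ev : ℕ → ProbabilityMeasure (ℤ → A) → ℝ := fun i ν =>
    (ν : Measure (ℤ → A)).real (cylSet (e i))
  have hev : ∀ i, Continuous (ev i) := fun i => continuous_real_clopen (isClopen_cylSet _)
  let nxt : ℕ → Set (ProbabilityMeasure (ℤ → A)) → Set (ProbabilityMeasure (ℤ → A)) :=
    fun i S => {ν | ν ∈ S ∧ ∀ ν' ∈ S, ev i ν' ≤ ev i ν}
  let F : ℕ → Set (ProbabilityMeasure (ℤ → A)) := fun i => Nat.rec S₀ (fun k S => nxt k S) i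
  have hF : ∀ i, IsClosed (F i) ∧ (F i).Nonempty := by
    intro i
    induction i with
    | zero => exact ⟨hS₀c, hS₀ne⟩
    | succ i ih =>
      refine ⟨?_, ?_⟩
      · show IsClosed (nxt i (F i))
        have : nxt i (F i) = F i ∩ ⋂ ν' ∈ F i, {ν | ev i ν' ≤ ev i ν} := by
          ext ν; simp [nxt]
        rw [this]
        exact ih.1.inter (isClosed_biInter fun ν' _ => isClosed_le continuous_const (hev i))
      · obtain ⟨ν, hν, hmax⟩ := ih.1.isCompact.exists_isMaxOn ih.2 (hev i).continuousOn
        exact ⟨ν, hν, fun ν' h' => hmax h'⟩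
  obtain ⟨ν, hν⟩ := IsCompact.nonempty_iInter_of_sequence_nonempty_isCompact_isClosed F
    (fun i => show nxt i (F i) ⊆ F i from fun _ h => h.1) (fun i => (hF i).2)
    (hF 0).1.isCompact (fun i => (hF i).1)
  rw [mem_iInter] at hν
  have hν0 : ν ∈ S₀ := hν 0
  -- a measure in `S₀` is invariant and carried by `K`
  have hmp : ∀ ρ : ProbabilityMeasure (ℤ → A), ρ ∈ S₀ →
      MeasurePreserving shiftZ (ρ : Measure (ℤ → A)) (ρ : Measure (ℤ → A)) := by
    intro ρ hρ
    refine ⟨measurable_shiftZ, ?_⟩
    refine ext_of_generate_finite _ generateFrom_measurableCylinders.symm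
      isPiSystem_measurableCylinders ?_ ?_
    · intro t ht
      obtain ⟨s, S, hS, rfl⟩ := (mem_measurableCylinders t).mp ht
      rw [Measure.map_apply measurable_shiftZ hS.cylinder]
      refine (measureReal_eq_measureReal_iff).mp ?_
      have h0 : ∀ n : ℕ, |(ρ : Measure (ℤ → A)).real (shiftZ ⁻¹' cylSet ⟨s, S⟩) -
          (ρ : Measure (ℤ → A)).real (cylSet ⟨s, S⟩)| ≤ 1 / (n + 1 : ℝ) := fun n =>
        ((mem_iInter.mp hρ n) ⟨s, S⟩).1
      have := ge_of_tendsto' tendsto_one_div_add_atTop_nhds_zero_nat h0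
      have h1 := abs_eq_zero.mp (le_antisymm this (abs_nonneg _))
      exact sub_eq_zero.mp h1
    · rw [Measure.map_apply measurable_shiftZ MeasurableSet.univ, preimage_univ]
  have hnull : (ν : Measure (ℤ → A)) Kᶜ = 0 := by
    have hcov : Kᶜ ⊆ ⋃ C ∈ {C : CylIdx A | Disjoint K (cylSet C)}, cylSet C := by
      intro x hx
      obtain ⟨I, u, hu, hsub⟩ := isOpen_pi_iff.mp hKc.isOpen_compl x hx
      refine mem_iUnion₂.mpr ⟨⟨I, {y | y = fun i : I => x i}⟩, ?_, ?_⟩
      · refine Set.disjoint_left.mpr fun y hy hyC => hsub ?_ hy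
        intro i hi
        have : (fun j : I => y j) = fun j : I => x j := hyC
        rw [show y i = x i from congrFun this ⟨i, hi⟩]
        exact (hu i hi).2
      · exact (mem_cylinder _ _ _).mpr rfl
    refine measure_mono_null hcov ((measure_biUnion_null_iff (to_countable _)).mpr fun C hC => ?_)
    have := ((mem_iInter.mp hν0 0) C).2 hC
    exact (measureReal_eq_zero_iff).mp this
  refine ⟨ν, inferInstance, Ergodic.of_mem_extremePoints ?_, hnull⟩
  rw [mem_extremePoints_iff_left]
  refine ⟨⟨hmp ν hν0, inferInstance⟩, ?_⟩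
  rintro ν₁ ⟨hi₁, hp₁⟩ ν₂ ⟨hi₂, hp₂⟩ ⟨a, b, ha, hb, hab, hsum⟩
  have hat : a ≠ ∞ := fun h => by simp [h] at hab
  have hbt : b ≠ ∞ := fun h => by simp [h] at hab
  have hab' : a.toReal + b.toReal = 1 := by
    rw [← ENNReal.toReal_add hat hbt, hab, ENNReal.toReal_one]
  have ha' : 0 < a.toReal := ENNReal.toReal_pos ha.ne' hat
  have hb' : 0 < b.toReal := ENNReal.toReal_pos hb.ne' hbt
  let P₁ : ProbabilityMeasure (ℤ → A) := ⟨ν₁, hp₁⟩
  let P₂ : ProbabilityMeasure (ℤ → A) := ⟨ν₂, hp₂⟩
  have hlin : ∀ i, ev i ν = a.toReal * ev i P₁ + b.toReal * ev i P₂ := by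
    intro i
    simp only [ev, P₁, P₂, ProbabilityMeasure.coe_mk, ← hsum, measureReal_def, Measure.add_apply,
      Measure.smul_apply, smul_eq_mul]
    rw [ENNReal.toReal_add (ENNReal.mul_ne_top hat (measure_ne_top _ _))
      (ENNReal.mul_ne_top hbt (measure_ne_top _ _)), ENNReal.toReal_mul, ENNReal.toReal_mul]
  -- both components stay in every face
  have hmem0 : ∀ P : ProbabilityMeasure (ℤ → A), MeasurePreserving shiftZ (P : Measure (ℤ → A))
      (P : Measure (ℤ → A)) → (∀ C, Disjoint K (cylSet C) →
        (P : Measure (ℤ → A)).real (cylSet C) = 0) → P ∈ S₀ := by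
    intro P hP hd
    refine mem_iInter.mpr fun n C => ⟨?_, hd C⟩
    rw [measureReal_def, hP.measure_preimage (measurableSet_cylSet C).nullMeasurableSet,
      ← measureReal_def, sub_self, abs_zero]
    positivity
  have hz : ∀ C, Disjoint K (cylSet C) → ν₁.real (cylSet C) = 0 ∧ ν₂.real (cylSet C) = 0 := by
    intro C hC
    obtain ⟨i, rfl⟩ := he C
    have h0 : ev i ν = 0 := ((mem_iInter.mp hν0 0) (e i)).2 hC
    rw [hlin i] at h0
    have n1 : 0 ≤ ev i P₁ := measureReal_nonneg
    have n2 : 0 ≤ ev i P₂ := measureReal_nonneg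
    constructor
    · show ev i P₁ = 0
      nlinarith
    · show ev i P₂ = 0
      nlinarith
  have hboth : ∀ i, P₁ ∈ F i ∧ P₂ ∈ F i := by
    intro i
    induction i with
    | zero => exact ⟨hmem0 P₁ hi₁ fun C h => (hz C h).1, hmem0 P₂ hi₂ fun C h => (hz C h).2⟩
    | succ i ih =>
      have hm := (hν (i + 1)).2
      have h1 := hm P₁ ih.1
      have h2 := hm P₂ ih.2
      have hl := hlin i
      have p1 := mul_nonneg ha'.le (sub_nonneg.mpr h1)
      have p2 := mul_nonneg hb'.le (sub_nonneg.mpr h2)
      have hsum0 : a.toReal * (ev i ν - ev i P₁) + b.toReal * (ev i ν - ev i P₂) = 0 := by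
        linear_combination (ev i ν) * hab' + hl
      have e1 : ev i ν - ev i P₁ = 0 := by
        rcases mul_eq_zero.mp (by linarith : a.toReal * (ev i ν - ev i P₁) = 0) with h | h
        · linarith
        · exact h
      have e2 : ev i ν - ev i P₂ = 0 := by
        rcases mul_eq_zero.mp (by linarith : b.toReal * (ev i ν - ev i P₂) = 0) with h | h
        · linarith
        · exact h
      exact ⟨⟨ih.1, fun ν' h' => by linarith [hm ν' h']⟩,
        ⟨ih.2, fun ν' h' => by linarith [hm ν' h']⟩⟩
  refine ext_of_generate_finite _ generateFrom_measurableCylinders.symm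
    isPiSystem_measurableCylinders ?_ (by simp)
  intro t ht
  obtain ⟨s, S, -, rfl⟩ := (mem_measurableCylinders t).mp ht
  obtain ⟨i, hi⟩ := he ⟨s, S⟩
  refine (measureReal_eq_measureReal_iff).mp ?_
  have hm := (hν (i + 1)).2 P₁ (hboth i).1
  have hm' := ((hboth (i + 1)).1).2 ν (hν i)
  have heq : ev i P₁ = ev i ν := le_antisymm hm hm'
  simp only [ev, P₁, ProbabilityMeasure.coe_mk] at heq
  rw [hi] at heq
  exact heq

end Vale.Agent.P109
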