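import Vale.Agent.P109.ProcessLevels
import Vale.Agent.P109.ProcErgodic

/-!
P109, word-process side, part 4: the nested subshifts, absence of atoms and the contradiction with
closeness of every scheduled candidate law.
-/

namespace Vale.Agent.P109

open MeasureTheory

variable {C : ℕ → ℕ → (n : ℕ) → Finset (Word n → ℝ)} {N : ℕ → ℕ → ℕ}

/-- Sequences that parse into words of the level. -/
def subshift (l : Lev) : Set Seq :=
  {x | ∃ o : Fin l.L, ∀ k : ℤ, ∃ b, ∀ i : Fin l.L, x ((o : ℕ) + k * l.L + (i : ℕ)) = l.W b i}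

lemma mem_subshift_of_int {l : Lev} (hL : 0 < l.L) {x : Seq} (o : ℤ)
    (h : ∀ k : ℤ, ∃ b, ∀ i : Fin l.L, x (o + k * l.L + (i : ℕ)) = l.W b i) : x ∈ subshift l := by
  have hL' : (0 : ℤ) < l.L := by exact_mod_cast hL
  refine ⟨⟨(o % l.L).toNat, ?_⟩, fun k => ?_⟩
  · have := Int.emod_lt_of_pos o hL'
    have := Int.emod_nonneg o hL'.ne'
    omega
  · obtain ⟨b, hb⟩ := h (k - o / l.L)
    refine ⟨b, fun i => ?_⟩
    rw [← hb i]
    congr 1
    have e := Int.emod_add_mul_ediv o l.L
    have := Int.emod_nonneg o hL'.ne'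
    simp only [Int.toNat_of_nonneg this]
    linear_combination e

lemma isClosed_subshift (l : Lev) : IsClosed (subshift l) := by
  have : subshift l = ⋃ o : Fin l.L, ⋂ k : ℤ, ⋃ b : Fin l.M, ⋂ i : Fin l.L,
      {x : Seq | x ((o : ℕ) + k * l.L + (i : ℕ)) = l.W b i} := by
    ext x; simp [subshift]
  rw [this]
  exact isClosed_iUnion_of_finite fun o => isClosed_iInter fun k => isClosed_iUnion_of_finite
    fun b => isClosed_iInter fun i => isClosed_eq (continuous_apply _) continuous_const

lemma mapsTo_subshift {l : Lev} (hL : 0 < l.L) :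
    Set.MapsTo shift (subshift l) (subshift l) := by
  rintro x ⟨o, ho⟩
  refine mem_subshift_of_int hL ((o : ℕ) - 1) fun k => ?_
  obtain ⟨b, hb⟩ := ho k
  refine ⟨b, fun i => ?_⟩
  rw [← hb i]
  show x _ = x _
  congr 1
  ring

lemma subshift_nonempty {l : Lev} (hL : 0 < l.L) (hM : 0 < l.M) : (subshift l).Nonempty := by
  refine ⟨fun t => l.W ⟨0, hM⟩ (t % l.L).toNat, mem_subshift_of_int hL 0 fun k => ⟨⟨0, hM⟩,
    fun i => ?_⟩⟩
  show l.W _ _ = l.W _ _
  congr 1
  rw [zero_add, add_comm, Int.add_mul_emod_self_right,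
    Int.emod_eq_of_lt (by positivity) (by exact_mod_cast i.isLt)]
  simp

lemma subshift_step {i : ℕ} {l l' : Lev} (hL : 0 < l.L) (h : Step C N i l l') :
    subshift l' ⊆ subshift l := by
  obtain ⟨R, hR, hlen, idx, hidx, -, -⟩ := h
  rintro x ⟨o, ho⟩
  refine mem_subshift_of_int hL (o : ℕ) fun k => ?_
  have hRM : (0 : ℤ) < (R * l.M : ℕ) := by
    rcases Nat.eq_zero_or_pos (R * l.M) with h0 | h0
    · have := o.isLt
      have : l'.L = 0 := by rw [hlen, h0, Nat.zero_mul]
      omega
    · exact_mod_cast h0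
  obtain ⟨b, hb⟩ := ho (k / (R * l.M : ℕ))
  set r : ℤ := k % (R * l.M : ℕ) with hr
  have hr0 : 0 ≤ r := Int.emod_nonneg _ hRM.ne'
  have hr1 : r.toNat < R * l.M := by have := Int.emod_lt_of_pos k hRM; omega
  refine ⟨idx b ⟨r.toNat, hr1⟩, fun m => ?_⟩
  rw [← hidx b ⟨r.toNat, hr1⟩ m m.isLt]
  have hlt : r.toNat * l.L + (m : ℕ) < l'.L := by
    rw [hlen]
    calc r.toNat * l.L + (m : ℕ) < r.toNat * l.L + l.L := Nat.add_lt_add_left m.isLt _
      _ = (r.toNat + 1) * l.L := by ring
      _ ≤ R * l.M * l.L := Nat.mul_le_mul_right _ hr1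
  rw [← hb ⟨_, hlt⟩]
  congr 1
  have e := Int.emod_add_mul_ediv k ((R * l.M : ℕ) : ℤ)
  push_cast [hlen, Int.toNat_of_nonneg hr0] at e ⊢
  rw [hr]
  push_cast
  linear_combination (-(l.L : ℤ)) * e

lemma shift_iterate (x : Seq) (n : ℕ) (t : ℤ) : shift^[n] x t = x (t + n) :=
  shiftZ_iterate x n t

/-- A point of two consecutive subshifts has no period below the number of words. -/
lemma period_ge {i : ℕ} {l l' : Lev} {j : ℕ} (hl : l.Ok j) (h : Step C N i l l') {x : Seq}
    (hx : x ∈ subshift l') {p : ℕ} (hp : 0 < p) (hper : ∀ t, x (t + p) = x t) : l.M ≤ p := by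
  obtain ⟨R, hR, hlen, idx, hidx, hcount, -⟩ := h
  obtain ⟨o, ho⟩ := hx
  obtain ⟨b, hb⟩ := ho 0
  have hsurj : ∀ a, ∃ k, idx b k = a := fun a => by
    have h0 : 0 < (Finset.univ.filter fun k => idx b k = a).card := by rw [hcount]; exact hR
    obtain ⟨k, hk⟩ := Finset.card_pos.mp h0
    exact ⟨k, (Finset.mem_filter.mp hk).2⟩
  choose kf hkf using hsurj
  have hblock : ∀ a, ∀ m < l.L, x ((o : ℕ) + ((kf a : ℕ) * l.L : ℕ) + m) = l.W a m := by
    intro a m hm
    have hlt : (kf a : ℕ) * l.L + m < l'.L := by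
      rw [hlen]
      calc (kf a : ℕ) * l.L + m < (kf a : ℕ) * l.L + l.L := Nat.add_lt_add_left hm _
        _ = ((kf a : ℕ) + 1) * l.L := by ring
        _ ≤ R * l.M * l.L := Nat.mul_le_mul_right _ (kf a).isLt
    have e := hb ⟨_, hlt⟩
    simp only [hidx b (kf a) m hm, hkf] at e
    rw [← e]
    congr 1
    push_cast
    ring
  have hperiod : ∀ (c : ℕ) (t : ℤ), x (t + c) = x (t + (c % p : ℕ)) := by
    intro c t
    have hiter : ∀ (q : ℕ) (t : ℤ), x (t + (q * p : ℕ)) = x t := by
      intro q
      induction q with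
      | zero => simp
      | succ q ih =>
        intro t
        rw [show t + ((q + 1) * p : ℕ) = t + (q * p : ℕ) + p by push_cast; ring, hper, ih]
    conv_lhs => rw [← Nat.mod_add_div c p]
    rw [show t + ((c % p + p * (c / p) : ℕ) : ℤ) = t + (c % p : ℕ) + ((c / p) * p : ℕ) by
      push_cast; ring, hiter]
  have hinj : Function.Injective fun a => (⟨(kf a : ℕ) * l.L % p, Nat.mod_lt _ hp⟩ : Fin p) := by
    intro a a' e
    have e' := congrArg Fin.val e
    simp only at e'
    by_contra hne
    have hsep := hl.2.1 a a' hne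
    have hz : hd l.L (l.W a) (l.W a') = 0 := by
      refine Finset.card_eq_zero.mpr (Finset.filter_eq_empty_iff.mpr fun m hm hmne => hmne ?_)
      have hm' := Finset.mem_range.mp hm
      rw [← hblock a m hm', ← hblock a' m hm',
        show ((o : ℕ) : ℤ) + ((kf a : ℕ) * l.L : ℕ) + m = (o : ℕ) + m + ((kf a : ℕ) * l.L : ℕ) by
          ring,
        show ((o : ℕ) : ℤ) + ((kf a' : ℕ) * l.L : ℕ) + m = (o : ℕ) + m + ((kf a' : ℕ) * l.L : ℕ) by
          ring,
        hperiod, hperiod ((kf a' : ℕ) * l.L), e']
    rw [hz, Nat.mul_zero] at hsep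
    have := hl.1
    have : 0 < (2 ^ (j + 1) + 1) * l.L := Nat.mul_pos (Nat.succ_pos _) hl.1
    omega
  simpa using Fintype.card_le_of_injective _ hinj

lemma escape {i j : ℕ} {l' l'' : Lev} (hl' : l'.Ok j) {R : ℕ} (hR : 0 < R)
    (hlen : l''.L = R * l'.M * l'.L) (idx : Fin l''.M → Fin (R * l'.M) → Fin l'.M)
    (hidx : ∀ b (k : Fin (R * l'.M)) (m : ℕ), m < l'.L → l''.W b (k * l'.L + m) = l'.W (idx b k) m)
    (hcount : ∀ b a, (Finset.univ.filter fun k => idx b k = a).card = R)
    (μ : Measure Seq) [IsProbabilityMeasure μ] (hμ : MeasurePreserving shift μ μ)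
    (hsupp : ∀ᵐ x ∂μ, x ∈ subshift l'')
    (q : Word (2 * l'.L) → ℝ) (hq : Subprob q) (Lam : Finset (Fin l'.M))
    (hLam : l'.M ≤ 2 * Lam.card) (hscore : ∑ b ∈ Lam, score l'.L q (l'.W b) ≤ 1 / 8) :
    ¬ Close μ q := by
  classical
  obtain ⟨n, M, W⟩ := l'
  simp only at W idx hidx hcount Lam hLam hscore hlen q hq ⊢
  intro hclose
  have hnpos : 0 < n := hl'.1
  set A : Finset (Word (2 * n)) := Finset.univ.filter fun z =>
    ∃ b ∈ Lam, ∃ o < n, ∀ m < n, zext z (o + m) = W b m with hA
  -- candidates: little mass near `A`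
  have hnear : ∑ z ∈ near (1 / 16) A, q z ≤ 1 / 8 := by
    refine le_trans ?_ hscore
    have hsub : near (1 / 16) A ⊆ (Lam ×ˢ Finset.range n).biUnion fun bo =>
        Finset.univ.filter fun z =>
          8 * hd n (fun m => zext z (bo.2 + m)) (W bo.1) ≤ n := by
      intro z hz
      simp only [near, Finset.mem_filter, Finset.mem_univ, true_and] at hz
      obtain ⟨w, hw, hdist⟩ := hz
      obtain ⟨b, hb, o, ho, hm⟩ := (Finset.mem_filter.mp hw).2
      refine Finset.mem_biUnion.mpr ⟨(b, o), Finset.mem_product.mpr ⟨hb, Finset.mem_range.mpr ho⟩,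
        Finset.mem_filter.mpr ⟨Finset.mem_univ _, ?_⟩⟩
      have h8 : 8 * hammingDist z w ≤ n := by
        have : (8 : ℝ) * (hammingDist z w : ℝ) ≤ (n : ℝ) := by
          push_cast at hdist; linarith
        exact_mod_cast this
      refine le_trans (Nat.mul_le_mul_left 8 ?_) h8
      simp only [hd, hammingDist]
      refine Finset.card_le_card_of_injOn
        (fun m => if h : o + m < 2 * n then (⟨o + m, h⟩ : Fin (2 * n)) else ⟨0, by omega⟩) ?_ ?_
      · intro m hm'
        obtain ⟨hmr, hmne⟩ := Finset.mem_filter.mp hm'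
        have hmn := Finset.mem_range.mp hmr
        have h2 : o + m < 2 * n := by omega
        refine Finset.mem_filter.mpr ⟨Finset.mem_univ _, ?_⟩
        simp only [dif_pos h2]
        rw [← hm m hmn] at hmne
        simpa [zext, h2] using hmne
      · intro m hm1 m' hm2 e
        have h1 := Finset.mem_range.mp (Finset.mem_filter.mp hm1).1
        have h2 := Finset.mem_range.mp (Finset.mem_filter.mp hm2).1
        simp only [dif_pos (show o + m < 2 * n by omega),
          dif_pos (show o + m' < 2 * n by omega), Fin.mk.injEq] at e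
        omega
    calc ∑ z ∈ near (1 / 16) A, q z ≤ _ :=
          Finset.sum_le_sum_of_subset_of_nonneg hsub fun z _ _ => hq.1 z
      _ ≤ ∑ bo ∈ Lam ×ˢ Finset.range n, ∑ z ∈ Finset.univ.filter (fun z =>
            8 * hd n (fun m => zext z (bo.2 + m)) (W bo.1) ≤ n), q z := by
          generalize Lam ×ˢ Finset.range n = S
          induction S using Finset.induction with
          | empty => simp
          | insert a S ha ih =>
            rw [Finset.biUnion_insert, Finset.sum_insert ha]
            refine le_trans ?_ (add_le_add le_rfl ih)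
            rw [← Finset.sum_union_inter]
            exact le_add_of_nonneg_right (Finset.sum_nonneg fun z _ => hq.1 z)
      _ = _ := by rw [Finset.sum_product]; rfl
  -- the measure gives much mass to `A`
  set S : Set Seq := window (2 * n) ⁻¹' (A : Set (Word (2 * n))) with hS
  have hSm : MeasurableSet S :=
    (measurable_pi_lambda _ fun _ => measurable_pi_apply _) A.finite_toSet.measurableSet
  set T := 2 * l''.L with hT
  have hpoint : ∀ x ∈ subshift l'', ((R * Lam.card - 1) * n : ℕ) ≤
      ∑ t ∈ Finset.range T, S.indicator (fun _ => (1 : ℝ)) (shift^[t] x) := by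
    rintro x ⟨o, ho⟩
    obtain ⟨b, hb⟩ := ho 0
    set good : Finset (Fin (R * M)) := Finset.univ.filter fun k => idx b k ∈ Lam with hgood
    have hgoodc : good.card = R * Lam.card := by
      rw [Finset.card_eq_sum_card_fiberwise (s := good) (f := idx b) (t := Lam)
        (fun k hk => (Finset.mem_filter.mp hk).2)]
      refine Eq.trans (Finset.sum_congr rfl fun a ha => ?_) (Finset.sum_const_nat (m := R)
        (fun _ _ => rfl) |>.trans (mul_comm _ _))
      refine Eq.trans ?_ (hcount b a)
      congr 1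
      ext k
      simp only [hgood, Finset.mem_filter, Finset.mem_univ, true_and]
      exact ⟨fun h => h.2, fun h => ⟨h ▸ ha, h⟩⟩
    set good' := good.filter fun k : Fin (R * M) => (k : ℕ) ≠ 0 with hgood'
    have hgood'c : R * Lam.card - 1 ≤ good'.card := by
      have : good.card ≤ good'.card + 1 := by
        have h1 := Finset.card_filter_add_card_filter_not (s := good)
          (fun k : Fin (R * M) => (k : ℕ) ≠ 0)
        have h2 : (good.filter fun k : Fin (R * M) => ¬(k : ℕ) ≠ 0).card ≤ 1 :=
          Finset.card_le_one.mpr fun a ha c hc => Fin.ext (by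
            have := (Finset.mem_filter.mp ha).2
            have := (Finset.mem_filter.mp hc).2
            omega)
        rw [hgood']
        omega
      omega
    -- the starts seen in the block
    let start : Fin (R * M) × ℕ → ℕ := fun ko => (o : ℕ) + (ko.1 : ℕ) * n - ko.2
    have hstart : ∀ ko ∈ good' ×ˢ Finset.range n,
        start ko ∈ Finset.range T ∧ shift^[start ko] x ∈ S := by
      rintro ⟨k, o'⟩ hko
      obtain ⟨hk, ho'⟩ := Finset.mem_product.mp hko
      have ho'' := Finset.mem_range.mp ho'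
      obtain ⟨hk1, hk0⟩ := Finset.mem_filter.mp hk
      have hk2 : idx b k ∈ Lam := (Finset.mem_filter.mp hk1).2
      have hkn : n ≤ (k : ℕ) * n := Nat.le_mul_of_pos_left n (Nat.pos_of_ne_zero hk0)
      have hkl : (k : ℕ) * n + n ≤ l''.L := by
        rw [hlen, ← Nat.succ_mul]; exact Nat.mul_le_mul_right _ k.isLt
      refine ⟨Finset.mem_range.mpr (by have := o.isLt; simp only [start]; omega),
        Finset.mem_filter.mpr ⟨Finset.mem_univ _, idx b k, hk2, o', ho'', fun m hm => ?_⟩⟩
      have h2 : o' + m < 2 * n := by omega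
      simp only [zext, dif_pos h2, window, shift_iterate]
      rw [← hidx b k m hm, ← hb ⟨(k : ℕ) * n + m, by omega⟩]
      congr 1
      simp only [start]
      rw [Nat.cast_sub (by omega)]
      push_cast
      ring
    have hinj : Set.InjOn start ↑(good' ×ˢ Finset.range n) := by
      rintro ⟨k, o'⟩ hko ⟨k', o''⟩ hko' e
      obtain ⟨hk, ho'⟩ := Finset.mem_product.mp hko
      obtain ⟨hk', ho''⟩ := Finset.mem_product.mp hko'
      have h1 := Finset.mem_range.mp ho'
      have h2 := Finset.mem_range.mp ho''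
      have hk0 : n ≤ (k : ℕ) * n :=
        Nat.le_mul_of_pos_left n (Nat.pos_of_ne_zero (Finset.mem_filter.mp hk).2)
      have hk0' : n ≤ (k' : ℕ) * n :=
        Nat.le_mul_of_pos_left n (Nat.pos_of_ne_zero (Finset.mem_filter.mp hk').2)
      simp only [start] at e
      have hkk : (k : ℕ) = k' := by
        rcases lt_trichotomy (k : ℕ) k' with h | h | h
        · have := Nat.mul_le_mul_right n (Nat.succ_le_of_lt h)
          rw [Nat.succ_mul] at this; omega
        · exact h
        · have := Nat.mul_le_mul_right n (Nat.succ_le_of_lt h)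
          rw [Nat.succ_mul] at this; omega
      rw [hkk] at e
      exact Prod.ext (Fin.ext hkk) (show o' = o'' by omega)
    calc (((R * Lam.card - 1) * n : ℕ) : ℝ) ≤ ((good' ×ˢ Finset.range n).card : ℕ) := by
          rw [Finset.card_product, Finset.card_range]
          exact_mod_cast Nat.mul_le_mul_right n hgood'c
      _ = ∑ t ∈ (good' ×ˢ Finset.range n).image start,
            S.indicator (fun _ => (1 : ℝ)) (shift^[t] x) := by
          rw [Finset.sum_image hinj, Finset.card_eq_sum_ones, Nat.cast_sum]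
          exact Finset.sum_congr rfl fun ko hko => by
            rw [Set.indicator_of_mem (hstart ko hko).2, Nat.cast_one]
      _ ≤ _ := Finset.sum_le_sum_of_subset_of_nonneg
            (fun t ht => by
              obtain ⟨ko, hko, rfl⟩ := Finset.mem_image.mp ht
              exact (hstart ko hko).1)
            fun t _ _ => Set.indicator_nonneg (fun _ _ => zero_le_one) _
  have hint : ∀ t : ℕ,
      Integrable (fun x => S.indicator (fun _ => (1 : ℝ)) (shift^[t] x)) μ ∧
      ∫ x, S.indicator (fun _ => (1 : ℝ)) (shift^[t] x) ∂μ = μ.real S := by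
    intro t
    have he : (fun x => S.indicator (fun _ => (1 : ℝ)) (shift^[t] x)) =
        (shift^[t] ⁻¹' S).indicator (fun _ => (1 : ℝ)) := rfl
    have hm : MeasurableSet (shift^[t] ⁻¹' S) := (hμ.iterate t).measurable hSm
    rw [he]
    refine ⟨(integrable_const _).indicator hm, ?_⟩
    rw [integral_indicator_const (1 : ℝ) hm, smul_eq_mul, mul_one, measureReal_def, measureReal_def,
      (hμ.iterate t).measure_preimage hSm.nullMeasurableSet]
  have hmass : (((R * Lam.card - 1) * n : ℕ) : ℝ) ≤ (T : ℝ) * μ.real S := by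
    calc (((R * Lam.card - 1) * n : ℕ) : ℝ)
        = ∫ _x, (((R * Lam.card - 1) * n : ℕ) : ℝ) ∂μ := by simp
      _ ≤ ∫ x, ∑ t ∈ Finset.range T, S.indicator (fun _ => (1 : ℝ)) (shift^[t] x) ∂μ :=
          integral_mono_ae (integrable_const _)
            (integrable_finset_sum _ fun t _ => (hint t).1)
            (hsupp.mono fun x hx => hpoint x hx)
      _ = _ := by
          rw [integral_finset_sum _ fun t _ => (hint t).1]
          simp [(hint _).2]
  have hup : μ.real S ≤ 3 / 16 := by
    have := hclose A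
    linarith
  have hM16 : 16 ≤ M := le_trans (by
    calc 16 = 2 ^ 2 ^ 2 := by norm_num
      _ ≤ 2 ^ 2 ^ (j + 4) := Nat.pow_le_pow_right (by norm_num)
          (Nat.pow_le_pow_right (by norm_num) (by omega))) hl'.2.2
  have hX : R * M ≤ 2 * (R * Lam.card) := by
    calc R * M ≤ R * (2 * Lam.card) := Nat.mul_le_mul_left R hLam
      _ = _ := by ring
  have h16 : 16 ≤ R * M := le_trans hM16 (Nat.le_mul_of_pos_left _ hR)
  have h1R : 1 ≤ R * Lam.card := by omega
  rw [hT, hlen] at hmass
  push_cast [Nat.cast_sub h1R] at hmass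
  have hXr : (R : ℝ) * M ≤ 2 * (R * Lam.card) := by exact_mod_cast hX
  have h16r : (16 : ℝ) ≤ R * M := by exact_mod_cast h16
  have hnr : (0 : ℝ) < n := by exact_mod_cast hnpos
  have h3 : (R : ℝ) * Lam.card - 1 ≤ 2 * (R * M) * μ.real S := by
    refine le_of_mul_le_mul_right ?_ hnr
    linarith
  have h4 : 2 * ((R : ℝ) * M) * μ.real S ≤ 2 * ((R : ℝ) * M) * (3 / 16) :=
    mul_le_mul_of_nonneg_left hup (by linarith)
  linarith

/-- **The word process.** One ergodic nonatomic shift-invariant measure escapes every scheduled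
candidate family. -/
theorem processStmt : ProcessStmt := by
  classical
  intro C N hC
  obtain ⟨lev, hok, hstep⟩ := exists_levels C N hC
  set X : Set Seq := ⋂ j, subshift (lev j) with hX
  have hXc : IsClosed X := isClosed_iInter fun j => isClosed_subshift _
  have hMpos : ∀ j, 0 < (lev j).M := fun j =>
    lt_of_lt_of_le (pow_pos (by norm_num) _) (hok j).2.2
  have hXne : X.Nonempty :=
    IsCompact.nonempty_iInter_of_sequence_nonempty_isCompact_isClosed _
      (fun j => subshift_step (hok j).1 (hstep j))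
      (fun j => subshift_nonempty (hok j).1 (hMpos j)) (isClosed_subshift _).isCompact
      (fun j => isClosed_subshift _)
  have hinv : Set.MapsTo shift X X := fun x hx =>
    Set.mem_iInter.mpr fun j => mapsTo_subshift (hok j).1 (Set.mem_iInter.mp hx j)
  obtain ⟨μ, hprob, herg, hnull⟩ := exists_ergodic hXc hXne hinv
  have herg' : Ergodic shift μ := herg
  have hae : ∀ j, ∀ᵐ x ∂μ, x ∈ subshift (lev j) := fun j => by
    refine ae_iff.mpr (measure_mono_null ?_ hnull)
    intro x hx hxX
    exact hx (Set.mem_iInter.mp hxX j)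
  refine ⟨μ, hprob, herg', fun x => ?_, fun i => ?_⟩
  · by_contra hx
    have hxX : x ∈ X := by
      by_contra h
      exact hx (measure_mono_null (Set.singleton_subset_iff.mpr h) hnull)
    have hmass : ∀ t : ℕ, μ {shift^[t] x} = μ {x} := fun t => by
      rw [← (herg'.toMeasurePreserving.iterate t).measure_preimage
        (measurableSet_singleton _).nullMeasurableSet]
      congr 1
      ext y
      simp only [Set.mem_preimage, Set.mem_singleton_iff]
      exact ⟨fun e => (shiftZEquiv (Fin q₀)).injective.iterate t e, fun e => by rw [e]⟩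
    obtain ⟨p, hp, hper⟩ : ∃ p : ℕ, 0 < p ∧ ∀ t, x (t + p) = x t := by
      by_contra hno
      push Not at hno
      have hinj : Function.Injective fun t : ℕ => shift^[t] x := by
        intro s t e
        by_contra hst
        rcases Nat.lt_or_gt_of_ne hst with h | h
        · obtain ⟨u, hu⟩ := hno (t - s) (by omega)
          refine hu ?_
          have := congrFun e (u - s)
          simp only [shift_iterate] at this
          rw [sub_add_cancel] at this
          rw [this, Nat.cast_sub h.le]; congr 1; ring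
        · obtain ⟨u, hu⟩ := hno (s - t) (by omega)
          refine hu ?_
          have := congrFun e (u - t)
          simp only [shift_iterate] at this
          rw [sub_add_cancel] at this
          rw [← this, Nat.cast_sub h.le]; congr 1; ring
      obtain ⟨m, hm⟩ := ENNReal.exists_nat_mul_gt hx ENNReal.one_ne_top
      have h1 : μ (((Finset.range m).image fun t => shift^[t] x : Finset Seq) : Set Seq) =
          m * μ {x} := by
        rw [← sum_measure_singleton, Finset.sum_image (hinj.injOn)]
        simp [hmass]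
      exact absurd hm (not_lt.mpr (h1 ▸ prob_le_one))
    have hxl : x ∈ subshift (lev (p + 1)) := Set.mem_iInter.mp hxX _
    have h1 := period_ge (hok p) (hstep p) hxl hp hper
    have h2 : 2 ^ 2 ^ (p + 4) ≤ (lev p).M := (hok p).2.2
    have h3 : p < 2 ^ p := Nat.lt_two_pow_self
    have h4 : 2 ^ p ≤ 2 ^ 2 ^ (p + 4) := Nat.pow_le_pow_right (by norm_num)
      (le_trans (Nat.le_add_right p 4) Nat.lt_two_pow_self.le)
    omega
  · obtain ⟨R₀, -, -, idx₀, -, -, a, ha, hlight⟩ := hstep i
    refine ⟨a, 2 * (lev (i + 1)).L, ha, fun q hq => ?_⟩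
    obtain ⟨Lam, hLam, hscore⟩ := hlight q hq
    obtain ⟨R, hR, hlen, idx, hidx, hcount, -⟩ := hstep (i + 1)
    exact escape (i := i) (hok (i + 1)) hR hlen idx hidx hcount μ herg'.toMeasurePreserving
      (hae (i + 2)) q ((hC i a _ ha).2 q hq) Lam hLam hscore

end Vale.Agent.P109
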