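import Vale.Agent.P109.ProcessSelect

/-!
P109, word-process side, part 3: the hierarchy of levels, each with a light half for every
candidate law of its stage.
-/

namespace Vale.Agent.P109

/-- A level: `M` words of length `L`. -/
structure Lev where
  L : ℕ
  M : ℕ
  W : Fin M → ℕ → Fin q₀

/-- Invariant of level `j`: relative separation at least `1/2 + 2^-(j+2)` and many words. -/
def Lev.Ok (l : Lev) (j : ℕ) : Prop :=
  0 < l.L ∧ (∀ a b, a ≠ b → (2 ^ (j + 1) + 1) * l.L ≤ 2 ^ (j + 2) * hd l.L (l.W a) (l.W b)) ∧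
    2 ^ 2 ^ (j + 4) ≤ l.M

/-- A word of length `m` read as a sequence. -/
def zext {m : ℕ} (z : Word m) (i : ℕ) : Fin q₀ := if h : i < m then z ⟨i, h⟩ else 0

/-- Mass of the offset balls around `w`. -/
noncomputable def score (n : ℕ) (q : Word (2 * n) → ℝ) (w : ℕ → Fin q₀) : ℝ :=
  ∑ o ∈ Finset.range n,
    ∑ z ∈ Finset.univ.filter (fun z => 8 * hd n (fun i => zext z (o + i)) w ≤ n), q z

/-- `l'` is made of blocks of `l`, evenly, and is light for the candidates of stage `i`. -/
def Step (C : ℕ → ℕ → (n : ℕ) → Finset (Word n → ℝ)) (N : ℕ → ℕ → ℕ) (i : ℕ) (l l' : Lev) :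
    Prop :=
  ∃ R : ℕ, 0 < R ∧ l'.L = R * l.M * l.L ∧
    ∃ idx : Fin l'.M → Fin (R * l.M) → Fin l.M,
      (∀ b (k : Fin (R * l.M)) (m : ℕ), m < l.L → l'.W b (k * l.L + m) = l.W (idx b k) m) ∧
      (∀ b a, (Finset.univ.filter fun k => idx b k = a).card = R) ∧
      ∃ a, N i a ≤ 2 * l'.L ∧ ∀ q ∈ C i a (2 * l'.L), ∃ Lam : Finset (Fin l'.M),
        l'.M ≤ 2 * Lam.card ∧ ∑ b ∈ Lam, score l'.L q (l'.W b) ≤ 1 / 8

lemma exists_step (C : ℕ → ℕ → (n : ℕ) → Finset (Word n → ℝ)) (N : ℕ → ℕ → ℕ)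
    (hC : ∀ i a n, N i a ≤ n →
      (C i a n).card ≤ 2 ^ 2 ^ (n / (a + 1)) ∧ ∀ q ∈ C i a n, Subprob q)
    (i j : ℕ) (l : Lev) (hl : l.Ok j) : ∃ l' : Lev, l'.Ok (j + 1) ∧ Step C N i l l' := by
  classical
  obtain ⟨L, M, W⟩ := l
  obtain ⟨hL, hsep, hbig⟩ := hl
  simp only at hL hsep hbig W
  have hMpos : 0 < M := lt_of_lt_of_le (pow_pos (by norm_num) _) hbig
  haveI : NeZero M := ⟨hMpos.ne'⟩
  set a := 8 * M * L - 1 with ha
  set K := 2 ^ (j + 3) with hK
  set s := N i a + 2 ^ (j + 5) + M * L + 12 with hs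
  set p := K * s with hp
  have hKpos : 0 < K := pow_pos (by norm_num) _
  have hsp : s ≤ p := Nat.le_mul_of_pos_left s hKpos
  have h5pos : 0 < 2 ^ (j + 5) := pow_pos (by norm_num) _
  set R := 4 * p with hR
  have hRpos : 0 < R := by omega
  haveI : NeZero R := ⟨hRpos.ne'⟩
  obtain ⟨V, hVcard, hVsep⟩ := exists_code (R := R) (M := M) (K := K)
    ⟨4 * s, by rw [hR, hp]; ring⟩ (by
      refine le_trans (le_of_eq ?_) hbig
      rw [hK, show j + 4 = (j + 3) + 1 from rfl, pow_succ 2 (j + 3), mul_comm (2 ^ (j + 3)) 2,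
        pow_mul]
      norm_num)
  set n := R * M * L with hn
  have hMLpos : 0 < M * L := Nat.mul_pos hMpos hL
  have hnpos : 0 < n := by
    rw [hn, mul_assoc]; exact Nat.mul_pos hRpos hMLpos
  have hRn : R ≤ n := by
    rw [hn, mul_assoc]; exact Nat.le_mul_of_pos_right R hMLpos
  have hdiv : 2 * n / (a + 1) = p := by
    have e : a + 1 = 8 * M * L := by
      have : 0 < 8 * M * L := by positivity
      omega
    rw [e, hn, hR, show 2 * (4 * p * M * L) = p * (8 * M * L) by ring]
    exact Nat.mul_div_cancel _ (by positivity)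
  obtain ⟨hcard, hsub⟩ := hC i a (2 * n) (by omega)
  rw [hdiv] at hcard
  -- separation of the code words
  let word : {v // v ∈ V} → ℕ → Fin q₀ := fun v => superWord L W v.1
  have hword : ∀ u v : {v // v ∈ V}, u ≠ v →
      (2 ^ (j + 2) + 1) * n ≤ 2 ^ (j + 3) * hd n (word u) (word v) := by
    intro u v huv
    have h1 := superWord_sep W hsep u.1 v.1
    have hag : agree u.1 v.1 * K < R :=
      hVsep _ u.2 _ v.2 (fun e => huv (Subtype.ext e))
    have h2 : (K - 1) * R ≤ K * (R - agree u.1 v.1) := by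
      rw [Nat.sub_mul, Nat.mul_sub, one_mul, mul_comm K (agree u.1 v.1)]
      omega
    refine Nat.le_of_mul_le_mul_left (c := 2 ^ (j + 2)) ?_ (pow_pos (by norm_num) _)
    calc 2 ^ (j + 2) * ((2 ^ (j + 2) + 1) * n)
        ≤ (K - 1) * (2 ^ (j + 1) + 1) * n := by
          rw [← mul_assoc]
          refine Nat.mul_le_mul_right n ?_
          obtain ⟨x, hx⟩ : ∃ x, 2 ^ (j + 1) = x + 1 :=
            ⟨2 ^ (j + 1) - 1, by have : 0 < 2 ^ (j + 1) := pow_pos (by norm_num) _; omega⟩
          have e2 : 2 ^ (j + 2) = (x + 1) * 2 := by rw [pow_succ 2 (j + 1), hx]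
          have e3 : 2 ^ (j + 3) = (x + 1) * 2 ^ 2 := by rw [← hx, ← pow_add]
          rw [hK, e2, e3, hx]
          have : (x + 1) * 2 ^ 2 - 1 = 4 * x + 3 := by omega
          rw [this]
          nlinarith
      _ = (K - 1) * R * (M * ((2 ^ (j + 1) + 1) * L)) := by rw [hn]; ring
      _ ≤ K * (R - agree u.1 v.1) * (M * ((2 ^ (j + 1) + 1) * L)) := Nat.mul_le_mul_right _ h2
      _ ≤ K * (2 ^ (j + 2) * hd n (word u) (word v)) := by
          rw [mul_assoc K]; exact Nat.mul_le_mul_left K h1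
      _ = 2 ^ (j + 2) * (2 ^ (j + 3) * hd n (word u) (word v)) := by rw [hK]; ring
  have hfar : ∀ u v : {v // v ∈ V}, u ≠ v → n < 2 * hd n (word u) (word v) := by
    intro u v huv
    have h := hword u v huv
    have e : 2 ^ (j + 3) = 2 ^ (j + 2) * 2 := pow_succ 2 (j + 2)
    rw [e, mul_assoc] at h
    by_contra hc
    push Not at hc
    have := Nat.mul_le_mul_left (2 ^ (j + 2)) hc
    nlinarith
  -- heavy code words
  set M' := 2 ^ (p - 1) with hM'
  have hpM : 2 * M' = 2 ^ p := by rw [hM', ← pow_succ']; congr 1; omega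
  let H : (Word (2 * n) → ℝ) → Finset {v // v ∈ V} := fun q =>
    Finset.univ.filter fun v => 1 / (16 * (M' : ℝ)) < score n q (word v)
  have hH : ∀ q ∈ C i a (2 * n), (H q).card ≤ 32 * n * M' := by
    intro q hq
    have hnn : ∀ v, 0 ≤ score n q (word v) := fun v =>
      Finset.sum_nonneg fun o _ => Finset.sum_nonneg fun z _ => (hsub q hq).1 z
    have htot : ∑ v, score n q (word v) ≤ 2 * n := by
      simp only [score]
      rw [Finset.sum_comm]
      calc ∑ o ∈ Finset.range n, ∑ v : {v // v ∈ V},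
            ∑ z ∈ Finset.univ.filter (fun z => 8 * hd n (fun i => zext z (o + i)) (word v) ≤ n), q z
          ≤ ∑ o ∈ Finset.range n, (2 : ℝ) := Finset.sum_le_sum fun o _ => ?_
        _ = 2 * n := by simp [mul_comm]
      rw [← Finset.sum_biUnion]
      · exact (Finset.sum_le_sum_of_subset_of_nonneg (Finset.subset_univ _)
          fun z _ _ => (hsub q hq).1 z).trans (hsub q hq).2
      · intro u _ v _ huv
        refine Finset.disjoint_left.mpr fun z hu hv => ?_
        simp only [Finset.mem_filter, Finset.mem_univ, true_and] at hu hv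
        have h1 := hfar u v huv
        have h2 := hd_triangle n (word u) (fun i => zext z (o + i)) (word v)
        rw [hd_comm n (word u) (fun i => zext z (o + i))] at h2
        omega
    have h1 : ((H q).card : ℝ) * (1 / (16 * (M' : ℝ))) ≤ 2 * n := by
      refine le_trans ?_ ((Finset.sum_le_sum_of_subset_of_nonneg (Finset.subset_univ (H q))
        fun v _ _ => hnn v).trans htot)
      rw [← nsmul_eq_mul]
      exact Finset.card_nsmul_le_sum _ _ _ fun v hv => (Finset.mem_filter.mp hv).2.le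
    have hMr : (0 : ℝ) < M' := by rw [hM']; positivity
    rw [mul_one_div, div_le_iff₀ (by positivity)] at h1
    have : ((H q).card : ℝ) ≤ ((32 * n * M' : ℕ) : ℝ) := by push_cast; linarith
    exact_mod_cast this
  have hp12 : 12 ≤ p := by omega
  have hpow : p < 2 ^ p := Nat.lt_two_pow_self
  have hbigV : 32 * (32 * n * M') < Fintype.card {v // v ∈ V} := by
    rw [Fintype.card_coe]
    refine lt_of_lt_of_le ?_ hVcard
    have hMp : M * L ≤ p := by omega
    have h2048 : 2 ^ 12 ≤ 2 ^ p := Nat.pow_le_pow_right (by norm_num) hp12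
    calc 32 * (32 * n * M') = 2048 * p * (M * L) * (2 * M') := by rw [hn, hR]; ring
      _ ≤ 2 ^ p * 2 ^ p * p * 2 ^ p := by
          rw [hpM]
          exact Nat.mul_le_mul_right _ (Nat.mul_le_mul (Nat.mul_le_mul (by omega) hpow.le) hMp)
      _ < 2 ^ p * 2 ^ p * 2 ^ p * 2 ^ p := by gcongr
      _ = 2 ^ R := by rw [hR, ← pow_add, ← pow_add, ← pow_add]; congr 1; omega
  have hinjV : 8 * M' * M' < Fintype.card {v // v ∈ V} := by
    rw [Fintype.card_coe]
    refine lt_of_lt_of_le ?_ hVcard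
    calc 8 * M' * M' = 2 * ((2 * M') * (2 * M')) := by ring
      _ = 2 ^ (p + p + 1) := by rw [hpM, ← pow_add, pow_succ']
      _ < 2 ^ R := Nat.pow_lt_pow_right (by norm_num) (by omega)
  obtain ⟨w, hwinj, hwlight⟩ := exists_selection (C i a (2 * n)) H (32 * n * M') M'
    (pow_pos (by norm_num) _) hH (by rw [hpM]; exact hcard) hbigV hinjV
  refine ⟨⟨n, 2 * M', fun b => word (w b)⟩, ⟨hnpos, fun b c hbc => ?_, ?_⟩, ?_⟩
  · exact hword _ _ fun e => hbc (hwinj e)
  · show 2 ^ 2 ^ (j + 5) ≤ 2 * M'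
    rw [hpM]
    exact Nat.pow_le_pow_right (by norm_num) (by omega)
  · refine ⟨R, hRpos, rfl, fun b k => blk (w b).1 k, fun b k m hm => ?_, fun b c => ?_,
      a, show N i a ≤ 2 * n by omega, fun q hq => ?_⟩
    · exact superWord_apply W (w b).1 k m hm
    · exact blk_count (w b).1 c
    · refine ⟨Finset.univ.filter fun b => w b ∉ H q, ?_, ?_⟩
      · exact Nat.mul_le_mul_left 2 (hwlight q hq)
      · calc ∑ b ∈ Finset.univ.filter (fun b => w b ∉ H q), score n q (word (w b))
            ≤ ∑ b ∈ Finset.univ.filter (fun b => w b ∉ H q), 1 / (16 * (M' : ℝ)) :=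
              Finset.sum_le_sum fun b hb => by
                have hb' : w b ∉ H q := (Finset.mem_filter.mp hb).2
                simpa [H] using hb'
          _ ≤ ∑ _b : Fin (2 * M'), 1 / (16 * (M' : ℝ)) :=
              Finset.sum_le_sum_of_subset_of_nonneg (Finset.subset_univ _)
                fun b _ _ => by positivity
          _ = 1 / 8 := by
              have hMr : (0 : ℝ) < M' := by rw [hM']; positivity
              simp only [Finset.sum_const, Finset.card_univ, Fintype.card_fin, nsmul_eq_mul]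
              push_cast
              field_simp
              norm_num

/-- The bottom level: single letters. -/
lemma base_ok : (⟨1, q₀, fun a _ => a⟩ : Lev).Ok 0 := by
  refine ⟨Nat.one_pos, fun a b hab => ?_, le_refl _⟩
  simp [hd, hab]

/-- All levels. -/
lemma exists_levels (C : ℕ → ℕ → (n : ℕ) → Finset (Word n → ℝ)) (N : ℕ → ℕ → ℕ)
    (hC : ∀ i a n, N i a ≤ n →
      (C i a n).card ≤ 2 ^ 2 ^ (n / (a + 1)) ∧ ∀ q ∈ C i a n, Subprob q) :
    ∃ lev : ℕ → Lev, (∀ j, (lev j).Ok j) ∧ ∀ j, Step C N j (lev j) (lev (j + 1)) := by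
  choose nxt h1 h2 using fun (j : ℕ) (l : {l : Lev // l.Ok j}) =>
    exists_step C N hC j j l.1 l.2
  let f : ∀ j, {l : Lev // l.Ok j} :=
    fun j => Nat.rec ⟨_, base_ok⟩ (fun k l => ⟨nxt k l, h1 k l⟩) j
  exact ⟨fun j => (f j).1, fun j => (f j).2, fun j => h2 j (f j)⟩

end Vale.Agent.P109
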