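import Vale.Agent.P109.ProcessWords

/-!
P109, word-process side, part 2: choosing few codewords so that, for each candidate law, half of
them are light.
-/

namespace Vale.Agent.P109

open Finset

lemma exists_selection {ι V : Type*} [Fintype V] [DecidableEq V] (C : Finset ι)
    (H : ι → Finset V) (h M' : ℕ) (hM : 0 < M') (hh : ∀ q ∈ C, (H q).card ≤ h)
    (hC : C.card ≤ 2 ^ (2 * M')) (hbig : 32 * h < Fintype.card V)
    (hinj : 8 * M' * M' < Fintype.card V) :
    ∃ w : Fin (2 * M') → V, Function.Injective w ∧
      ∀ q ∈ C, M' ≤ (univ.filter fun b => w b ∉ H q).card := by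
  classical
  set N := Fintype.card V with hN
  set bad : Finset (Fin (2 * M') → V) :=
    C.biUnion fun q => (univ.powersetCard M').biUnion fun S =>
      Fintype.piFinset fun b => if b ∈ S then H q else univ with hbad
  have hbadcard : bad.card ≤ 2 ^ (2 * M') * (2 ^ (2 * M') * (h ^ M' * N ^ M')) := by
    refine (card_biUnion_le_card_mul _ _ _ fun q hq => ?_).trans (Nat.mul_le_mul_right _ hC)
    refine (card_biUnion_le_card_mul _ _ (h ^ M' * N ^ M') fun S hS => ?_).trans
      (Nat.mul_le_mul_right _ ?_)
    · rw [Fintype.card_piFinset]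
      simp only [apply_ite Finset.card, card_univ, ← hN]
      rw [prod_ite, prod_const, prod_const, filter_mem_eq_inter, univ_inter,
        (mem_powersetCard.mp hS).2, filter_not, card_univ_diff, Fintype.card_fin,
        filter_mem_eq_inter, univ_inter, (mem_powersetCard.mp hS).2]
      rw [show 2 * M' - M' = M' by omega]
      exact Nat.mul_le_mul_right _ (Nat.pow_le_pow_left (hh q hq) _)
    · calc ((univ : Finset (Fin (2 * M'))).powersetCard M').card
          ≤ (univ : Finset (Fin (2 * M'))).powerset.card :=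
            card_le_card fun S _ => mem_powerset.mpr (subset_univ S)
        _ = 2 ^ (2 * M') := by simp
  set clash : Finset (Fin (2 * M') → V) :=
    (univ : Finset (Fin (2 * M'))).biUnion fun a => (univ.erase a).biUnion fun b =>
      univ.filter fun w => w a = w b with hclash
  have hclashcard : clash.card ≤ 2 * M' * (2 * M' * N ^ (2 * M' - 1)) := by
    refine (card_biUnion_le_card_mul _ _ (2 * M' * N ^ (2 * M' - 1)) fun a _ => ?_).trans (by simp)
    refine (card_biUnion_le_card_mul _ _ (N ^ (2 * M' - 1)) fun b hb => ?_).trans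
      (Nat.mul_le_mul_right _ ((card_erase_le).trans (by simp)))
    have hba : b ≠ a := (mem_erase.mp hb).1
    refine le_trans (card_le_card_of_injOn (t := (univ : Finset ({i // i ≠ a} → V)))
      (fun w i => w i) (fun w _ => mem_univ _) ?_) (by simp [hN, Fintype.card_subtype_compl])
    intro w hw w' hw' he
    funext i
    by_cases hi : i = a
    · subst hi
      have e : w b = w' b := congrFun he ⟨b, hba⟩
      have f1 : w i = w b := (mem_filter.mp hw).2
      have f2 : w' i = w' b := (mem_filter.mp hw').2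
      rw [f1, f2, e]
    · exact congrFun he ⟨i, hi⟩
  have hNpow : N ^ (2 * M') = N ^ M' * N ^ M' := by rw [two_mul, pow_add]
  have hlt : bad.card + clash.card < N ^ (2 * M') := by
    have h16 : 2 ^ (2 * M') * (2 ^ (2 * M') * h ^ M') = (16 * h) ^ M' := by
      rw [mul_pow, pow_mul, ← mul_assoc, ← mul_pow]
      norm_num
    have hb : 2 * bad.card ≤ N ^ (2 * M') := by
      have h1 : 2 * (16 * h) ^ M' ≤ N ^ M' := by
        calc 2 * (16 * h) ^ M' ≤ 2 ^ M' * (16 * h) ^ M' :=
              Nat.mul_le_mul_right _ (le_self_pow (by norm_num) hM.ne')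
          _ = (32 * h) ^ M' := by rw [← mul_pow]; ring_nf
          _ ≤ N ^ M' := Nat.pow_le_pow_left hbig.le _
      calc 2 * bad.card ≤ 2 * (2 ^ (2 * M') * (2 ^ (2 * M') * (h ^ M' * N ^ M'))) :=
            Nat.mul_le_mul_left _ hbadcard
        _ = 2 * (16 * h) ^ M' * N ^ M' := by rw [← h16]; ring
        _ ≤ N ^ M' * N ^ M' := Nat.mul_le_mul_right _ h1
        _ = N ^ (2 * M') := hNpow.symm
    have hcl : 2 * clash.card < N ^ (2 * M') := by
      have hp : N ^ (2 * M') = N * N ^ (2 * M' - 1) := by
        rw [← pow_succ']; congr 1; omega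
      have hpos : 0 < N ^ (2 * M' - 1) := pow_pos (by omega) _
      calc 2 * clash.card ≤ 2 * (2 * M' * (2 * M' * N ^ (2 * M' - 1))) :=
            Nat.mul_le_mul_left _ hclashcard
        _ = 8 * M' * M' * N ^ (2 * M' - 1) := by ring
        _ < N * N ^ (2 * M' - 1) := Nat.mul_lt_mul_of_pos_right hinj hpos
        _ = N ^ (2 * M') := hp.symm
    omega
  obtain ⟨w, -, hw⟩ := exists_mem_notMem_of_card_lt_card (s := bad ∪ clash)
    (t := (univ : Finset (Fin (2 * M') → V)))
    (lt_of_le_of_lt (card_union_le _ _) (by simpa [hN] using hlt))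
  simp only [mem_union, not_or] at hw
  refine ⟨w, fun a b hab => ?_, fun q hq => ?_⟩
  · by_contra hne
    exact hw.2 (mem_biUnion.mpr ⟨a, mem_univ _, mem_biUnion.mpr
      ⟨b, mem_erase.mpr ⟨fun e => hne e.symm, mem_univ _⟩, mem_filter.mpr ⟨mem_univ _, hab⟩⟩⟩)
  · by_contra hlt'
    have htot := card_filter_add_card_filter_not (s := (univ : Finset (Fin (2 * M'))))
      (fun b => w b ∈ H q)
    simp only [card_univ, Fintype.card_fin] at htot
    obtain ⟨S, hS, hSc⟩ := exists_subset_card_eq
      (show M' ≤ (univ.filter fun b => w b ∈ H q).card by omega)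
    refine hw.1 (mem_biUnion.mpr ⟨q, hq, mem_biUnion.mpr ⟨S, by simp [hSc], ?_⟩⟩)
    refine Fintype.mem_piFinset.mpr fun b => ?_
    split_ifs with hb
    · exact (mem_filter.mp (hS hb)).2
    · exact mem_univ _

end Vale.Agent.P109
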