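import Vale.Agent.P109.Defs

/-!
P109, word-process side, part 1: superwords made of cyclically shifted segments of blocks, their
separation and balance, and a maximal code with small agreement.
-/

namespace Vale.Agent.P109

/-- Hamming distance of the first `n` letters. -/
def hd {α : Type*} [DecidableEq α] (n : ℕ) (u v : ℕ → α) : ℕ :=
  ((Finset.range n).filter fun i => u i ≠ v i).card

lemma hd_eq_sum {α : Type*} [DecidableEq α] (n : ℕ) (u v : ℕ → α) :
    hd n u v = ∑ i ∈ Finset.range n, if u i ≠ v i then 1 else 0 :=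
  Finset.card_filter _ _

lemma hd_comm {α : Type*} [DecidableEq α] (n : ℕ) (u v : ℕ → α) : hd n u v = hd n v u := by
  simp only [hd, ne_comm]

lemma hd_triangle {α : Type*} [DecidableEq α] (n : ℕ) (u v w : ℕ → α) :
    hd n u w ≤ hd n u v + hd n v w := by
  simp only [hd_eq_sum, ← Finset.sum_add_distrib]
  refine Finset.sum_le_sum fun i _ => ?_
  by_cases h1 : u i = v i <;> by_cases h2 : v i = w i <;> simp_all
  all_goals split_ifs <;> norm_num

lemma sum_range_mul' {β : Type*} [AddCommMonoid β] (a b : ℕ) (f : ℕ → β) :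
    ∑ i ∈ Finset.range (a * b), f i =
      ∑ r ∈ Finset.range a, ∑ s ∈ Finset.range b, f (r * b + s) := by
  induction a with
  | zero => simp
  | succ a ih => rw [Nat.succ_mul, Finset.sum_range_add, ih, Finset.sum_range_succ]

/-- The index of block `k` in the superword of `u`. -/
def blk {R M : ℕ} [NeZero R] [NeZero M] (u : Fin R → Fin M) (k : ℕ) : Fin M :=
  (⟨k % M, Nat.mod_lt _ (NeZero.pos M)⟩ : Fin M) + u ⟨k / M % R, Nat.mod_lt _ (NeZero.pos R)⟩

/-- The superword of `u`. -/
def superWord {α : Type*} {R M : ℕ} [NeZero R] [NeZero M] (L : ℕ) (W : Fin M → ℕ → α)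
    (u : Fin R → Fin M) : ℕ → α :=
  fun i => W (blk u (i / L)) (i % L)

lemma superWord_apply {α : Type*} {R M : ℕ} [NeZero R] [NeZero M] {L : ℕ} (W : Fin M → ℕ → α)
    (u : Fin R → Fin M) (k i : ℕ) (hi : i < L) :
    superWord L W u (k * L + i) = W (blk u k) i := by
  have h1 : (k * L + i) / L = k := by
    rw [Nat.add_comm, Nat.add_mul_div_right _ _ (by omega), Nat.div_eq_of_lt hi, Nat.zero_add]
  have h2 : (k * L + i) % L = i := by rw [Nat.mul_add_mod', Nat.mod_eq_of_lt hi]
  simp only [superWord, h1, h2]

lemma blk_apply {R M : ℕ} [NeZero R] [NeZero M] (u : Fin R → Fin M) (r : Fin R) (s : Fin M) :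
    blk u (r * M + s) = s + u r := by
  have h1 : ((r : ℕ) * M + s) % M = s := by rw [Nat.mul_add_mod', Nat.mod_eq_of_lt s.isLt]
  have h2 : ((r : ℕ) * M + s) / M = r := by
    rw [Nat.add_comm, Nat.add_mul_div_right _ _ (NeZero.pos M), Nat.div_eq_of_lt s.isLt,
      Nat.zero_add]
  simp only [blk, h1, h2, Nat.mod_eq_of_lt r.isLt]

/-- Each superword uses each block exactly `R` times. -/
lemma blk_count {R M : ℕ} [NeZero R] [NeZero M] (u : Fin R → Fin M) (a : Fin M) :
    ((Finset.univ : Finset (Fin (R * M))).filter fun k : Fin (R * M) => blk u (k : ℕ) = a).card = R := by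
  rw [Finset.card_filter, Fin.sum_univ_eq_sum_range fun k => if blk u k = a then 1 else 0,
    sum_range_mul']
  rw [← Fin.sum_univ_eq_sum_range
    (fun r => ∑ s ∈ Finset.range M, if blk u (r * M + s) = a then 1 else 0)]
  have : ∀ r : Fin R, ∑ s ∈ Finset.range M, (if blk u (r * M + s) = a then 1 else 0) = 1 := by
    intro r
    rw [← Fin.sum_univ_eq_sum_range (fun s => if blk u (r * M + s) = a then 1 else 0)]
    simp [blk_apply, ← eq_sub_iff_add_eq]
  simp [this]

/-- Number of agreements of two index words. -/
def agree {R M : ℕ} (u v : Fin R → Fin M) : ℕ := (Finset.univ.filter fun r => u r = v r).card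

/-- Superwords of index words with small agreement are far apart. -/
lemma superWord_sep {α : Type*} [DecidableEq α] {R M L : ℕ} [NeZero R] [NeZero M]
    (W : Fin M → ℕ → α) {d c : ℕ} (hd0 : ∀ a b, a ≠ b → d ≤ c * hd L (W a) (W b))
    (u v : Fin R → Fin M) :
    (R - agree u v) * (M * d) ≤ c * hd (R * M * L) (superWord L W u) (superWord L W v) := by
  have hblock : hd (R * M * L) (superWord L W u) (superWord L W v) =
      ∑ k ∈ Finset.range (R * M), hd L (W (blk u k)) (W (blk v k)) := by
    rw [hd_eq_sum, sum_range_mul']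
    refine Finset.sum_congr rfl fun k _ => ?_
    rw [hd_eq_sum]
    refine Finset.sum_congr rfl fun i hi => ?_
    rw [superWord_apply W u k i (Finset.mem_range.mp hi),
      superWord_apply W v k i (Finset.mem_range.mp hi)]
  rw [hblock, sum_range_mul', ← Fin.sum_univ_eq_sum_range
    (fun r => ∑ s ∈ Finset.range M, hd L (W (blk u (r * M + s))) (W (blk v (r * M + s))))]
  have hcard : R - agree u v = (Finset.univ.filter fun r => ¬ u r = v r).card := by
    have := Finset.card_filter_add_card_filter_not (s := (Finset.univ : Finset (Fin R)))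
      (fun r => u r = v r)
    simp only [Finset.card_univ, Fintype.card_fin] at this
    unfold agree
    omega
  rw [hcard]
  rw [Finset.mul_sum]
  refine le_trans ?_ (Finset.sum_le_sum_of_subset (Finset.filter_subset (fun r => ¬ u r = v r) _))
  rw [← smul_eq_mul (Finset.card _)]
  refine Finset.card_nsmul_le_sum _ _ _ fun r hr => ?_
  rw [← Fin.sum_univ_eq_sum_range
    (fun s => hd L (W (blk u (r * M + s))) (W (blk v (r * M + s)))), Finset.mul_sum]
  calc M * d = ∑ _s : Fin M, d := by simp
    _ ≤ _ := Finset.sum_le_sum fun s _ => hd0 _ _ (by simpa [blk_apply] using hr)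

/-- A maximal code with pairwise agreement below `R / K` is large. -/
lemma exists_code {R M K : ℕ} [NeZero M] (hK : K ∣ R) (hM : 4 ^ K ≤ M) :
    ∃ V : Finset (Fin R → Fin M), 2 ^ R ≤ V.card ∧
      ∀ u ∈ V, ∀ v ∈ V, u ≠ v → agree u v * K < R := by
  classical
  let good : Finset (Fin R → Fin M) → Prop :=
    fun V => ∀ u ∈ V, ∀ v ∈ V, u ≠ v → agree u v * K < R
  obtain ⟨V, hV, hmax⟩ := Finset.exists_max_image (Finset.univ.filter good) Finset.card
    ⟨∅, by simp [good]⟩
  have hgood : good V := (Finset.mem_filter.mp hV).2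
  refine ⟨V, ?_, hgood⟩
  obtain ⟨s, rfl⟩ := hK
  rcases Nat.eq_zero_or_pos K with rfl | hKpos
  · have : ({fun _ => 0} : Finset (Fin (0 * s) → Fin M)).card ≤ V.card :=
      hmax _ (by simp [good])
    simpa using this
  -- every word is covered
  let cover : Finset (Fin (K * s)) → (Fin (K * s) → Fin M) → Finset (Fin (K * s) → Fin M) :=
    fun S v => Fintype.piFinset fun r => if r ∈ S then {v r} else Finset.univ
  have hcov : (Finset.univ : Finset (Fin (K * s) → Fin M)) ⊆
      V.biUnion fun v => (Finset.univ.powersetCard s).biUnion fun S => cover S v := by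
    intro u _
    have : ∃ v ∈ V, K * s ≤ agree u v * K := by
      by_contra hno
      push Not at hno
      have hsym : ∀ v, agree v u = agree u v := fun v => by simp [agree, eq_comm]
      have huV : u ∉ V := fun h => by
        have := hno u h
        simp [agree] at this
        exact absurd this (by have := Nat.le_mul_of_pos_left (K * s) hKpos; nlinarith)
      have hbig := hmax (insert u V) (Finset.mem_filter.mpr ⟨Finset.mem_univ _, ?_⟩)
      · rw [Finset.card_insert_of_notMem huV] at hbig
        omega
      · intro x hx y hy hne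
        by_cases hxu : x = u
        · subst hxu
          exact hno y (Finset.mem_of_mem_insert_of_ne hy (Ne.symm hne))
        · have hxV := Finset.mem_of_mem_insert_of_ne hx hxu
          by_cases hyu : y = u
          · subst hyu
            rw [hsym]; exact hno x hxV
          · exact hgood x hxV y (Finset.mem_of_mem_insert_of_ne hy hyu) hne
    obtain ⟨v, hv, hag⟩ := this
    have : s ≤ agree u v := Nat.le_of_mul_le_mul_left (by linarith) hKpos
    obtain ⟨S, hS, hSc⟩ := Finset.exists_subset_card_eq this
    refine Finset.mem_biUnion.mpr ⟨v, hv, Finset.mem_biUnion.mpr ⟨S, by simp [hSc], ?_⟩⟩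
    refine Fintype.mem_piFinset.mpr fun r => ?_
    split_ifs with h
    · simpa using (Finset.mem_filter.mp (hS h)).2
    · exact Finset.mem_univ _
  have hone : ∀ S ∈ (Finset.univ : Finset (Fin (K * s))).powersetCard s, ∀ v,
      (cover S v).card = M ^ (K * s - s) := by
    intro S hS v
    simp only [cover, Fintype.card_piFinset, apply_ite Finset.card, Finset.card_singleton,
      Finset.card_univ, Fintype.card_fin]
    rw [Finset.prod_ite, Finset.prod_const_one, one_mul, Finset.prod_const]
    congr 1
    rw [Finset.filter_not, Finset.card_univ_diff, Fintype.card_fin, Finset.filter_mem_eq_inter,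
      Finset.univ_inter, (Finset.mem_powersetCard.mp hS).2]
  have hball : ∀ v, ((Finset.univ.powersetCard s).biUnion fun S => cover S v).card ≤
      2 ^ (K * s) * M ^ (K * s - s) := by
    intro v
    refine (Finset.card_biUnion_le_card_mul _ _ _ fun S hS => (hone S hS v).le).trans ?_
    refine Nat.mul_le_mul_right _ ?_
    calc ((Finset.univ : Finset (Fin (K * s))).powersetCard s).card
        ≤ (Finset.univ : Finset (Fin (K * s))).powerset.card :=
          Finset.card_le_card fun S _ => Finset.mem_powerset.mpr (Finset.subset_univ S)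
      _ = 2 ^ (K * s) := by simp
  have htot := (Finset.card_le_card hcov).trans
    (Finset.card_biUnion_le_card_mul _ _ _ fun v _ => hball v)
  simp only [Finset.card_univ, Fintype.card_fun, Fintype.card_fin] at htot
  have hsle : s ≤ K * s := Nat.le_mul_of_pos_left s hKpos
  have hMs : 2 ^ (K * s) * 2 ^ (K * s) ≤ M ^ s := by
    calc 2 ^ (K * s) * 2 ^ (K * s) = (4 ^ K) ^ s := by
          rw [← mul_pow, ← pow_mul]; norm_num
      _ ≤ M ^ s := Nat.pow_le_pow_left hM s
  have hsplit : M ^ (K * s) = M ^ s * M ^ (K * s - s) := by rw [← pow_add]; congr 1; omega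
  rw [hsplit, ← mul_assoc] at htot
  have h2 : M ^ s ≤ V.card * 2 ^ (K * s) :=
    Nat.le_of_mul_le_mul_right htot (pow_pos (NeZero.pos M) _)
  exact Nat.le_of_mul_le_mul_right (hMs.trans h2) (pow_pos (by norm_num) _)

end Vale.Agent.P109
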