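import Vale.Agent.P109.Defs

/-!
P109, model side: finite programs (piecewise polynomial maps with dyadic coefficients on a dyadic
grid) and the one-step error estimate.
-/

open Finset

namespace Vale.Agent.P109

/-- Coordinates. -/
abbrev Vec (d : ℕ) : Type := Fin d → ℝ

/-- Coefficients of a polynomial map of degree at most `k`. -/
abbrev Coef (d k : ℕ) : Type := (i : Fin (k + 1)) → (Fin i → Fin d) → Vec d

/-- Evaluation of a polynomial map. -/
def peval {d k : ℕ} (c : Coef d k) (h : Vec d) : Vec d :=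
  ∑ i : Fin (k + 1), ∑ w : Fin i → Fin d, (∏ r, h (w r)) • c i w

theorem abs_prod_sub_prod_le {n : ℕ} (x y : Fin n → ℝ) {R δ : ℝ} (hx : ∀ r, |x r| ≤ R)
    (hy : ∀ r, |y r| ≤ R) (hxy : ∀ r, |x r - y r| ≤ δ) :
    |∏ r, x r - ∏ r, y r| ≤ n * R ^ (n - 1) * δ := by
  induction n with
  | zero => simp
  | succ n ih =>
    have hR : 0 ≤ R := (abs_nonneg _).trans (hx 0)
    have hδ : 0 ≤ δ := (abs_nonneg _).trans (hxy 0)
    rw [Fin.prod_univ_succ, Fin.prod_univ_succ]
    have e : x 0 * ∏ r : Fin n, x r.succ - y 0 * ∏ r : Fin n, y r.succ =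
        (x 0 - y 0) * ∏ r : Fin n, x r.succ +
          y 0 * (∏ r : Fin n, x r.succ - ∏ r : Fin n, y r.succ) := by ring
    rw [e]
    have h1 : |∏ r : Fin n, x r.succ| ≤ R ^ n := by
      rw [Finset.abs_prod]
      calc ∏ r : Fin n, |x r.succ| ≤ ∏ _r : Fin n, R :=
            prod_le_prod (fun r _ => abs_nonneg _) fun r _ => hx _
        _ = R ^ n := by simp
    have h2 := ih (fun r => x r.succ) (fun r => y r.succ) (fun r => hx _) (fun r => hy _)
      (fun r => hxy _)
    calc _ ≤ |(x 0 - y 0) * ∏ r : Fin n, x r.succ| +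
          |y 0 * (∏ r : Fin n, x r.succ - ∏ r : Fin n, y r.succ)| := abs_add_le _ _
      _ ≤ δ * R ^ n + R * (n * R ^ (n - 1) * δ) := by
          rw [abs_mul, abs_mul]
          exact add_le_add (mul_le_mul (hxy 0) h1 (abs_nonneg _) hδ)
            (mul_le_mul (hy 0) h2 (abs_nonneg _) hR)
      _ = ((n + 1 : ℕ) : ℝ) * R ^ (n + 1 - 1) * δ := by
          cases n with
          | zero => simp
          | succ m => push_cast; ring

theorem abs_prod_le {n : ℕ} (x : Fin n → ℝ) {R : ℝ} (hx : ∀ r, |x r| ≤ R) :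
    |∏ r, x r| ≤ R ^ n := by
  rw [Finset.abs_prod]
  calc ∏ r, |x r| ≤ ∏ _r : Fin n, R := prod_le_prod (fun r _ => abs_nonneg _) fun r _ => hx _
    _ = R ^ n := by simp

/-- Number of terms of a polynomial map. -/
def nTerms (d k : ℕ) : ℕ := (k + 1) * (d + 1) ^ k

theorem sum_terms_le {d k : ℕ} (f : (i : Fin (k + 1)) → (Fin i → Fin d) → ℝ) {a : ℝ}
    (ha : 0 ≤ a) (hf : ∀ i w, f i w ≤ a) :
    ∑ i : Fin (k + 1), ∑ w : Fin i → Fin d, f i w ≤ nTerms d k * a := by
  calc ∑ i : Fin (k + 1), ∑ w : Fin i → Fin d, f i w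
      ≤ ∑ _i : Fin (k + 1), ((d + 1 : ℕ) ^ k : ℕ) * a := by
        refine sum_le_sum fun i _ => ?_
        calc ∑ w : Fin i → Fin d, f i w ≤ ∑ _w : Fin i → Fin d, a := sum_le_sum fun w _ => hf i w
          _ = ((d ^ (i : ℕ) : ℕ) : ℝ) * a := by simp
          _ ≤ _ := by
            refine mul_le_mul_of_nonneg_right (Nat.cast_le.2 ?_) ha
            exact (Nat.pow_le_pow_left (Nat.le_succ d) _).trans
              (Nat.pow_le_pow_right (Nat.succ_pos d) (Nat.lt_succ_iff.1 i.2))
    _ = nTerms d k * a := by simp [nTerms]; ring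

/-- Evaluation is stable: the degree one part contributes the Lipschitz constant `P * d`, the
higher degrees are small when the radius is small. -/
theorem peval_stable {d k : ℕ} (c c' : Coef d k) (h h' : Vec d) {A P R δ η : ℝ}
    (hA : ∀ i w, ‖c i w‖ ≤ A) (hP : ∀ i : Fin (k + 1), (i : ℕ) = 1 → ∀ w, ‖c i w‖ ≤ P)
    (hP0 : 0 ≤ P) (hR : R ≤ 1) (hη : ∀ i w, ‖c' i w - c i w‖ ≤ η) (hη0 : 0 ≤ η)
    (hh : ‖h‖ ≤ R) (hh' : ‖h'‖ ≤ R) (hd : ‖h' - h‖ ≤ δ)
    (hsmall : (nTerms d k : ℝ) * (A * k * R) ≤ 1) :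
    ‖peval c' h' - peval c h‖ ≤ nTerms d k * η + (P * d + 1) * δ := by
  have hR0 : 0 ≤ R := (norm_nonneg h).trans hh
  have hδ : 0 ≤ δ := (norm_nonneg _).trans hd
  have key : ∀ (i : Fin (k + 1)) (w : Fin i → Fin d),
      ‖(∏ r, h' (w r)) • c' i w - (∏ r, h (w r)) • c i w‖ ≤
        η + (if (i : ℕ) = 1 then P * δ else A * k * R * δ) := by
    intro i w
    have e : (∏ r, h' (w r)) • c' i w - (∏ r, h (w r)) • c i w =
        (∏ r, h' (w r)) • (c' i w - c i w) + (∏ r, h' (w r) - ∏ r, h (w r)) • c i w := by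
      simp [smul_sub, sub_smul]
    rw [e]
    have hx : ∀ r, |h' (w r)| ≤ R := fun r => ((Real.norm_eq_abs _).symm.le.trans
      (norm_le_pi_norm h' (w r))).trans hh'
    have hy : ∀ r, |h (w r)| ≤ R := fun r => ((Real.norm_eq_abs _).symm.le.trans
      (norm_le_pi_norm h (w r))).trans hh
    have hxy : ∀ r, |h' (w r) - h (w r)| ≤ δ := fun r => by
      have := (norm_le_pi_norm (h' - h) (w r)).trans hd
      simpa using this
    have h1 : ‖(∏ r, h' (w r)) • (c' i w - c i w)‖ ≤ η := by
      rw [norm_smul, Real.norm_eq_abs]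
      calc |∏ r, h' (w r)| * ‖c' i w - c i w‖ ≤ 1 * η :=
            mul_le_mul ((abs_prod_le _ hx).trans (pow_le_one₀ hR0 hR)) (hη i w) (norm_nonneg _)
              zero_le_one
        _ = η := one_mul η
    have h2 : ‖(∏ r, h' (w r) - ∏ r, h (w r)) • c i w‖ ≤
        if (i : ℕ) = 1 then P * δ else A * k * R * δ := by
      rw [norm_smul, Real.norm_eq_abs]
      have hp := abs_prod_sub_prod_le _ _ hx hy hxy
      have hA0 : 0 ≤ A := (norm_nonneg _).trans (hA i w)
      split_ifs with hi
      · calc _ ≤ δ * P := by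
              refine mul_le_mul ?_ (hP i hi w) (norm_nonneg _) hδ
              refine hp.trans (le_of_eq ?_)
              simp [hi]
          _ = P * δ := mul_comm _ _
      · calc _ ≤ ((i : ℕ) * R ^ ((i : ℕ) - 1) * δ) * A :=
              mul_le_mul hp (hA i w) (norm_nonneg _) (by positivity)
          _ ≤ (k * R * δ) * A := by
              gcongr ?_ * δ * A
              rcases Nat.eq_zero_or_pos (i : ℕ) with h0 | h0
              · rw [h0]; simp; positivity
              · refine mul_le_mul (by exact_mod_cast Nat.lt_succ_iff.1 i.2) ?_ (by positivity)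
                  (by positivity)
                exact pow_le_of_le_one hR0 hR (by omega)
          _ = _ := by ring
    exact (norm_add_le _ _).trans (add_le_add h1 h2)
  calc ‖peval c' h' - peval c h‖
      = ‖∑ i : Fin (k + 1), ∑ w : Fin i → Fin d,
          ((∏ r, h' (w r)) • c' i w - (∏ r, h (w r)) • c i w)‖ := by
        simp [peval, sum_sub_distrib]
    _ ≤ ∑ i : Fin (k + 1), ∑ w : Fin i → Fin d,
          (η + (if (i : ℕ) = 1 then P * δ else A * k * R * δ)) :=
        (norm_sum_le _ _).trans (sum_le_sum fun i _ => (norm_sum_le _ _).trans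
          (sum_le_sum fun w _ => key i w))
    _ ≤ ∑ i : Fin (k + 1), ∑ w : Fin i → Fin d, (η + (max (A * k * R) 0) * δ) +
          ∑ i : Fin (k + 1), (if (i : ℕ) = 1 then (d : ℝ) * (P * δ) else 0) := by
        rw [← sum_add_distrib]
        refine sum_le_sum fun i _ => ?_
        by_cases hi : (i : ℕ) = 1
        · have hn : (Fintype.card (Fin i → Fin d) : ℝ) = d := by simp [hi]
          simp only [hi, if_true]
          rw [sum_const, sum_const, nsmul_eq_mul, nsmul_eq_mul, card_univ, hn]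
          nlinarith [mul_nonneg (Nat.cast_nonneg d : (0 : ℝ) ≤ d)
            (mul_nonneg (le_max_right (A * k * R) 0) hδ)]
        · simp only [hi, if_false, add_zero]
          gcongr
          exact le_max_left _ _
    _ ≤ nTerms d k * (η + (max (A * k * R) 0) * δ) + (d : ℝ) * (P * δ) := by
        refine add_le_add (sum_terms_le _ (by positivity) fun _ _ => le_rfl) ?_
        rcases Nat.eq_zero_or_pos k with hk | hk
        · subst hk
          simp
          positivity
        · rw [sum_eq_single (⟨1, by omega⟩ : Fin (k + 1))]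
          · simp
          · intro b _ hb
            rw [if_neg]
            intro h1
            exact hb (Fin.ext h1)
          · simp
    _ ≤ nTerms d k * η + (P * d + 1) * δ := by
        have h0 : (nTerms d k : ℝ) * max (A * k * R) 0 ≤ 1 := by
          rcases le_total (A * k * R) 0 with h | h
          · simp [max_eq_right h]
          · rwa [max_eq_left h]
        nlinarith [mul_le_mul_of_nonneg_right h0 hδ]

/-- Cells of the dyadic grid of side `2^-g` covering `[-P, P]^d`. -/
abbrev Cell (d P g : ℕ) : Type := Fin d → Fin (2 * P * 2 ^ g + 1)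

/-- The cell of a point. -/
noncomputable def cellOf {d : ℕ} (P g : ℕ) (u : Vec d) : Cell d P g := fun l =>
  ⟨min ⌊(u l + P) * 2 ^ g⌋₊ (2 * P * 2 ^ g), Nat.lt_succ_of_le (min_le_right _ _)⟩

/-- The corner of a cell. -/
noncomputable def corner {d P g : ℕ} (c : Cell d P g) : Vec d := fun l =>
  (c l : ℝ) / 2 ^ g - P

/-- Numbers with `2b` bits before and `b` bits after the point. -/
abbrev Digit (b : ℕ) : Type := Fin (2 * 4 ^ b + 1)

/-- The value of a number. -/
noncomputable def val {b : ℕ} (z : Digit b) : ℝ := ((z : ℝ) - 4 ^ b) / 2 ^ b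

/-- What a program does on one cell: next piece, base point, coefficients. -/
abbrev Instr (d m k b : ℕ) : Type :=
  Fin m × (Fin d → Digit b) × ((i : Fin (k + 1)) → (Fin i → Fin d) → Fin d → Digit b)

/-- A program. -/
abbrev Code (d m P g k b : ℕ) : Type := Fin m → Cell d P g → Instr d m k b

/-- The coefficients of an instruction. -/
noncomputable def Instr.coef {d m k b : ℕ} (x : Instr d m k b) : Coef d k :=
  fun i w l => val (x.2.2 i w l)

/-- One step of a program. -/
noncomputable def progStep {d m P g k b : ℕ} (p : Code d m P g k b) (s : Fin m × Vec d) :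
    Fin m × Vec d :=
  let x := p s.1 (cellOf P g s.2)
  (x.1, peval x.coef (s.2 - fun l => val (x.2.1 l)))

theorem exists_digit {b : ℕ} {x : ℝ} (hx : |x| ≤ 2 ^ b) :
    ∃ z : Digit b, |val z - x| ≤ 1 / 2 ^ b := by
  obtain ⟨h1, h2⟩ := abs_le.1 hx
  have h4 : (4 : ℝ) ^ b = 2 ^ b * 2 ^ b := by rw [← mul_pow]; norm_num
  have hp : (0 : ℝ) < 2 ^ b := by positivity
  set y : ℝ := x * 2 ^ b + 4 ^ b with hy
  have hy0 : 0 ≤ y := by rw [hy, h4]; nlinarith
  have hy2 : y ≤ 2 * 4 ^ b := by rw [hy, h4]; nlinarith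
  have hfl : ⌊y⌋₊ < 2 * 4 ^ b + 1 := by
    refine Nat.lt_succ_of_le (Nat.floor_le_of_le ?_)
    push_cast
    exact hy2
  refine ⟨⟨⌊y⌋₊, hfl⟩, ?_⟩
  have e : val (⟨⌊y⌋₊, hfl⟩ : Digit b) - x = ((⌊y⌋₊ : ℝ) - y) / 2 ^ b := by
    simp only [val, hy]
    field_simp
    ring
  rw [e, abs_div, abs_of_pos hp]
  gcongr
  rw [abs_le]
  constructor <;> linarith [Nat.floor_le hy0, Nat.lt_floor_add_one y]

theorem exists_digit_vec {b d : ℕ} {x : Vec d} (hx : ‖x‖ ≤ 2 ^ b) :
    ∃ z : Fin d → Digit b, ‖(fun l => val (z l)) - x‖ ≤ 1 / 2 ^ b := by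
  choose z hz using fun l => exists_digit (b := b) (x := x l)
    (((Real.norm_eq_abs _).symm.le.trans (norm_le_pi_norm x l)).trans hx)
  exact ⟨z, (pi_norm_le_iff_of_nonneg (by positivity)).2 fun l => by simpa using hz l⟩

theorem norm_corner_sub {d P g : ℕ} {u : Vec d} {e : ℝ} {v : Vec d}
    (hv : ‖v - u‖ ≤ e) (hvP : ‖v‖ ≤ P) :
    ‖corner (cellOf P g u) - u‖ ≤ 1 / 2 ^ g + e := by
  have he : 0 ≤ e := (norm_nonneg _).trans hv
  refine (pi_norm_le_iff_of_nonneg (by positivity)).2 fun l => ?_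
  have h1 := abs_le.1 (((Real.norm_eq_abs _).symm.le.trans (norm_le_pi_norm v l)).trans hvP)
  have h2 := abs_le.1 (((Real.norm_eq_abs _).symm.le.trans (norm_le_pi_norm (v - u) l)).trans hv)
  simp only [Pi.sub_apply] at h2
  have hg : (0 : ℝ) < 2 ^ g := by positivity
  set y : ℝ := (u l + P) * 2 ^ g with hy
  have key : |((min ⌊y⌋₊ (2 * P * 2 ^ g) : ℕ) : ℝ) - y| ≤ 1 + e * 2 ^ g := by
    have ylo : -(e * 2 ^ g) ≤ y := by rw [hy]; nlinarith
    have yhi : y ≤ 2 * P * 2 ^ g + e * 2 ^ g := by rw [hy]; nlinarith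
    have heg : 0 ≤ e * 2 ^ g := by positivity
    rw [abs_le]
    rcases lt_or_ge y 0 with hy0 | hy0
    · rw [Nat.floor_of_nonpos hy0.le]
      simp
      constructor <;> linarith
    · have f1 := Nat.floor_le hy0
      have f2 := Nat.lt_floor_add_one y
      rcases le_total ⌊y⌋₊ (2 * P * 2 ^ g) with hc | hc
      · rw [min_eq_left hc]
        constructor <;> linarith
      · rw [min_eq_right hc]
        have : ((2 * P * 2 ^ g : ℕ) : ℝ) ≤ (⌊y⌋₊ : ℝ) := by exact_mod_cast hc
        push_cast at this ⊢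
        constructor <;> linarith
  have e1 : corner (cellOf P g u) l - u l =
      (((min ⌊y⌋₊ (2 * P * 2 ^ g) : ℕ) : ℝ) - y) / 2 ^ g := by
    simp only [corner, cellOf, hy]
    field_simp
    ring
  rw [Pi.sub_apply, e1, Real.norm_eq_abs, abs_div, abs_of_pos hg, div_le_iff₀ hg]
  refine key.trans (le_of_eq ?_)
  field_simp

theorem measurable_cellOf {d P g : ℕ} : Measurable (cellOf (d := d) P g) := by
  refine measurable_pi_lambda _ fun l => ?_
  have h : Measurable fun u : Vec d => ⌊(u l + P) * 2 ^ g⌋₊ :=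
    Nat.measurable_floor.comp (((measurable_pi_apply l).add_const _).mul_const _)
  have h2 : Measurable fun n : ℕ =>
      (⟨min n (2 * P * 2 ^ g), Nat.lt_succ_of_le (min_le_right _ _)⟩ :
        Fin (2 * P * 2 ^ g + 1)) := measurable_from_top
  exact h2.comp h

theorem measurable_progStep {d m P g k b : ℕ} (p : Code d m P g k b) :
    Measurable (progStep p) := by
  have hx : Measurable fun s : Fin m × Vec d => p s.1 (cellOf P g s.2) := by
    have h1 : Measurable fun q : Fin m × Cell d P g => p q.1 q.2 := measurable_of_countable _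
    exact h1.comp (measurable_fst.prodMk (measurable_cellOf.comp measurable_snd))
  refine Measurable.prodMk ((measurable_of_countable fun x : Instr d m k b => x.1).comp hx) ?_
  unfold peval Instr.coef
  refine Finset.measurable_sum _ fun i _ => Finset.measurable_sum _ fun w _ => ?_
  refine measurable_pi_lambda _ fun l => ?_
  simp only [Pi.smul_apply, smul_eq_mul, Pi.sub_apply]
  refine Measurable.mul (Finset.measurable_prod _ fun r _ => ?_) ?_
  · exact ((measurable_pi_apply (w r)).comp measurable_snd).sub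
      ((measurable_of_countable fun x : Instr d m k b => val (x.2.1 (w r))).comp hx)
  · exact (measurable_of_countable fun x : Instr d m k b => val (x.2.2 i w l)).comp hx

end Vale.Agent.P109
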